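import Vale.Agent.P245.M5.Moments

/-!
# P245, module M5: a calculus for the generator

`Nice` functions of `(t, th)` are `C²` with bounded time derivative and bounded first two line
derivatives; the generator satisfies the product and chain rules on them.
-/

namespace Vale.Agent.P245

open MeasureTheory
open scoped RealInnerProductSpace

namespace M5

variable {n : ℕ}

/-- Boundedness on all of time times space. -/
def Bd (g : ℝ → Rn n → ℝ) : Prop := ∃ C, ∀ t th, |g t th| ≤ C

lemma Bd.const (c : ℝ) : Bd (n := n) fun _ _ => c := ⟨|c|, fun _ _ => le_rfl⟩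

lemma Bd.of_eq {f g : ℝ → Rn n → ℝ} (h : Bd f) (he : ∀ t th, g t th = f t th) : Bd g := by
  obtain ⟨C, hC⟩ := h
  exact ⟨C, fun t th => by rw [he]; exact hC t th⟩

lemma Bd.add {f g : ℝ → Rn n → ℝ} (hf : Bd f) (hg : Bd g) : Bd fun t th => f t th + g t th := by
  obtain ⟨C, hC⟩ := hf
  obtain ⟨D, hD⟩ := hg
  exact ⟨C + D, fun t th => (abs_add_le _ _).trans (add_le_add (hC t th) (hD t th))⟩

lemma Bd.mul {f g : ℝ → Rn n → ℝ} (hf : Bd f) (hg : Bd g) : Bd fun t th => f t th * g t th := by
  obtain ⟨C, hC⟩ := hf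
  obtain ⟨D, hD⟩ := hg
  refine ⟨C * D, fun t th => ?_⟩
  rw [abs_mul]
  exact mul_le_mul (hC t th) (hD t th) (abs_nonneg _) ((abs_nonneg _).trans (hC t th))

lemma Bd.sum {ι : Type*} (s : Finset ι) {f : ι → ℝ → Rn n → ℝ} (h : ∀ i ∈ s, Bd (f i)) :
    Bd fun t th => ∑ i ∈ s, f i t th := by
  classical
  induction s using Finset.induction with
  | empty => exact (Bd.const 0).of_eq fun t th => by simp
  | insert a s ha ih =>
    refine ((h a (Finset.mem_insert_self _ _)).add
      (ih fun i hi => h i (Finset.mem_insert_of_mem hi))).of_eq fun t th => ?_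
    rw [Finset.sum_insert ha]

lemma Bd.comp {f : ℝ → Rn n → ℝ} (hf : Bd f) (h1 : ∀ t th, 1 ≤ f t th) {ψ : ℝ → ℝ}
    (hψ : ContinuousOn ψ (Set.Ioi 0)) : Bd fun t th => ψ (f t th) := by
  obtain ⟨C, hC⟩ := hf
  have hsub : Set.Icc 1 C ⊆ Set.Ioi (0 : ℝ) := fun x hx => lt_of_lt_of_le one_pos hx.1
  obtain ⟨D, hD⟩ := isCompact_Icc.exists_bound_of_continuousOn (hψ.mono hsub)
  exact ⟨D, fun t th => hD _ ⟨h1 t th, (le_abs_self _).trans (hC t th)⟩⟩

/-- Time derivative. -/
noncomputable def dt (f : ℝ → Rn n → ℝ) (t : ℝ) (th : Rn n) : ℝ := deriv (fun s => f s th) t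

/-- Restriction to a coordinate line. -/
noncomputable def line (i : Fin n) (f : ℝ → Rn n → ℝ) (t : ℝ) (th : Rn n) (s : ℝ) : ℝ :=
  f t (th + s • unit i)

lemma D1_line (i : Fin n) (f : ℝ → Rn n → ℝ) (t : ℝ) (th : Rn n) (s : ℝ) :
    D1 i (f t) (th + s • unit i) = deriv (line i f t th) s := by
  unfold D1
  have h : (fun r : ℝ => f t (th + s • unit i + r • unit i)) = fun r => line i f t th (s + r) := by
    ext r
    rw [line, add_smul, add_assoc]
  rw [h, deriv_comp_const_add, add_zero]

lemma D1_eq (i : Fin n) (f : ℝ → Rn n → ℝ) (t : ℝ) (th : Rn n) :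
    D1 i (f t) th = deriv (line i f t th) 0 := rfl

lemma D2_eq (i : Fin n) (f : ℝ → Rn n → ℝ) (t : ℝ) (th : Rn n) :
    D2 i (f t) th = deriv (deriv (line i f t th)) 0 := by
  unfold D2
  congr 1
  exact funext fun s => D1_line i f t th s

/-- `C²` with bounded value, time derivative and first two line derivatives. -/
structure Nice (f : ℝ → Rn n → ℝ) : Prop where
  cd : ContDiff ℝ 2 (Function.uncurry f)
  b0 : Bd f
  bt : Bd (dt f)
  b1 : ∀ i, Bd fun t th => D1 i (f t) th
  b2 : ∀ i, Bd fun t th => D2 i (f t) th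

section Slices

variable {f g : ℝ → Rn n → ℝ}

lemma cd_line (hf : ContDiff ℝ 2 (Function.uncurry f)) (i : Fin n) (t : ℝ) (th : Rn n) :
    ContDiff ℝ 2 (line i f t th) :=
  hf.comp (contDiff_const.prodMk (contDiff_const.add (contDiff_id.smul contDiff_const)))

lemma diff_line (hf : ContDiff ℝ 2 (Function.uncurry f)) (i : Fin n) (t : ℝ) (th : Rn n) :
    Differentiable ℝ (line i f t th) :=
  (cd_line hf i t th).differentiable (by norm_num)

lemma diff_deriv_line (hf : ContDiff ℝ 2 (Function.uncurry f)) (i : Fin n) (t : ℝ) (th : Rn n) :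
    Differentiable ℝ (deriv (line i f t th)) := by
  have h : ContDiff ℝ (1 + 1) (line i f t th) := by
    have := cd_line hf i t th
    rwa [show ((2 : WithTop ℕ∞)) = 1 + 1 by norm_num] at this
  exact (contDiff_succ_iff_deriv.1 h).2.2.differentiable (by norm_num)

lemma diff_time (hf : ContDiff ℝ 2 (Function.uncurry f)) (th : Rn n) :
    Differentiable ℝ fun s => f s th :=
  (hf.comp (contDiff_id.prodMk contDiff_const) : ContDiff ℝ 2 fun s => f s th).differentiable
    (by norm_num)

variable {μ : Measure (Rn n)}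

lemma gen_eq (f : ℝ → Rn n → ℝ) (t : ℝ) (th : Rn n) :
    gen μ f t th = dt f t th + ∑ i, ex μ t th (fun x => x i) * D1 i (f t) th
      + 2⁻¹ * ∑ i, D2 i (f t) th := rfl

lemma D1_const (i : Fin n) (c : ℝ) (t : ℝ) (th : Rn n) :
    D1 i ((fun (_ : ℝ) (_ : Rn n) => c) t) th = 0 := deriv_const 0 c

lemma D2_const (i : Fin n) (c : ℝ) (t : ℝ) (th : Rn n) :
    D2 i ((fun (_ : ℝ) (_ : Rn n) => c) t) th = 0 := by
  unfold D2 D1
  simp

lemma Nice.const (c : ℝ) : Nice (n := n) fun _ _ => c where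
  cd := contDiff_const
  b0 := Bd.const c
  bt := (Bd.const 0).of_eq fun _ _ => deriv_const _ c
  b1 i := (Bd.const 0).of_eq fun t th => D1_const i c t th
  b2 i := (Bd.const 0).of_eq fun t th => D2_const i c t th

lemma gen_const (c : ℝ) (t : ℝ) (th : Rn n) : gen μ (fun _ _ => c) t th = 0 := by
  unfold gen D2 D1
  simp

variable (hf : Nice f) (hg : Nice g)
include hf hg

lemma D1_add (i : Fin n) (t : ℝ) (th : Rn n) :
    D1 i ((fun t th => f t th + g t th) t) th = D1 i (f t) th + D1 i (g t) th :=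
  deriv_fun_add (diff_line hf.cd i t th 0) (diff_line hg.cd i t th 0)

lemma D2_add (i : Fin n) (t : ℝ) (th : Rn n) :
    D2 i ((fun t th => f t th + g t th) t) th = D2 i (f t) th + D2 i (g t) th := by
  rw [D2_eq i (fun t th => f t th + g t th), D2_eq, D2_eq]
  have h : deriv (line i (fun t th => f t th + g t th) t th)
      = fun s => deriv (line i f t th) s + deriv (line i g t th) s :=
    funext fun s => deriv_fun_add (diff_line hf.cd i t th s) (diff_line hg.cd i t th s)
  rw [h, deriv_fun_add (diff_deriv_line hf.cd i t th 0) (diff_deriv_line hg.cd i t th 0)]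

lemma dt_add (t : ℝ) (th : Rn n) :
    dt (fun t th => f t th + g t th) t th = dt f t th + dt g t th :=
  deriv_fun_add (diff_time hf.cd th t) (diff_time hg.cd th t)

lemma Nice.add : Nice fun t th => f t th + g t th where
  cd := hf.cd.add hg.cd
  b0 := hf.b0.add hg.b0
  bt := (hf.bt.add hg.bt).of_eq fun t th => dt_add hf hg t th
  b1 i := ((hf.b1 i).add (hg.b1 i)).of_eq fun t th => D1_add hf hg i t th
  b2 i := ((hf.b2 i).add (hg.b2 i)).of_eq fun t th => D2_add hf hg i t th

lemma gen_add (t : ℝ) (th : Rn n) :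
    gen μ (fun t th => f t th + g t th) t th = gen μ f t th + gen μ g t th := by
  simp only [gen_eq, dt_add hf hg, D1_add hf hg, D2_add hf hg, mul_add, Finset.sum_add_distrib]
  ring

lemma D1_mul (i : Fin n) (t : ℝ) (th : Rn n) :
    D1 i ((fun t th => f t th * g t th) t) th
      = D1 i (f t) th * g t th + f t th * D1 i (g t) th := by
  rw [D1_eq i (fun t th => f t th * g t th), D1_eq, D1_eq]
  refine (deriv_fun_mul (diff_line hf.cd i t th 0) (diff_line hg.cd i t th 0)).trans ?_
  simp [line]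

lemma D2_mul (i : Fin n) (t : ℝ) (th : Rn n) :
    D2 i ((fun t th => f t th * g t th) t) th = D2 i (f t) th * g t th
      + 2 * (D1 i (f t) th * D1 i (g t) th) + f t th * D2 i (g t) th := by
  have hl : deriv (line i (fun t th => f t th * g t th) t th)
      = fun s => deriv (line i f t th) s * line i g t th s
        + line i f t th s * deriv (line i g t th) s :=
    funext fun s => deriv_fun_mul (diff_line hf.cd i t th s) (diff_line hg.cd i t th s)
  rw [D2_eq i (fun t th => f t th * g t th), hl]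
  refine (deriv_fun_add
    ((diff_deriv_line hf.cd i t th 0).mul (diff_line hg.cd i t th 0))
    ((diff_line hf.cd i t th 0).mul (diff_deriv_line hg.cd i t th 0))).trans ?_
  rw [deriv_mul (diff_deriv_line hf.cd i t th 0) (diff_line hg.cd i t th 0),
    deriv_mul (diff_line hf.cd i t th 0) (diff_deriv_line hg.cd i t th 0)]
  simp only [← D1_eq, ← D2_eq, line, zero_smul, add_zero]
  ring

lemma dt_mul (t : ℝ) (th : Rn n) :
    dt (fun t th => f t th * g t th) t th = dt f t th * g t th + f t th * dt g t th :=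
  deriv_fun_mul (diff_time hf.cd th t) (diff_time hg.cd th t)

lemma Nice.mul : Nice fun t th => f t th * g t th where
  cd := hf.cd.mul hg.cd
  b0 := hf.b0.mul hg.b0
  bt := ((hf.bt.mul hg.b0).add (hf.b0.mul hg.bt)).of_eq fun t th => dt_mul hf hg t th
  b1 i := (((hf.b1 i).mul hg.b0).add (hf.b0.mul (hg.b1 i))).of_eq fun t th => D1_mul hf hg i t th
  b2 i := ((((hf.b2 i).mul hg.b0).add ((Bd.const 2).mul ((hf.b1 i).mul (hg.b1 i)))).add
    (hf.b0.mul (hg.b2 i))).of_eq fun t th => D2_mul hf hg i t th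

lemma gen_mul (t : ℝ) (th : Rn n) :
    gen μ (fun t th => f t th * g t th) t th = gen μ f t th * g t th + f t th * gen μ g t th
      + ∑ i, D1 i (f t) th * D1 i (g t) th := by
  simp only [gen_eq, dt_mul hf hg, D1_mul hf hg, D2_mul hf hg, mul_add, add_mul,
    Finset.sum_add_distrib, Finset.mul_sum, Finset.sum_mul]
  ring_nf

end Slices

section Sums

variable {μ : Measure (Rn n)} {ι : Type*} {f : ι → ℝ → Rn n → ℝ}

lemma sum_rules (hf : ∀ j, Nice (f j)) (s : Finset ι) :
    Nice (fun t th => ∑ j ∈ s, f j t th) ∧ ∀ t th,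
      gen μ (fun t th => ∑ j ∈ s, f j t th) t th = ∑ j ∈ s, gen μ (f j) t th ∧
      ∀ i, D1 i ((fun t th => ∑ j ∈ s, f j t th) t) th = ∑ j ∈ s, D1 i (f j t) th := by
  classical
  induction s using Finset.induction with
  | empty =>
    simp only [Finset.sum_empty]
    exact ⟨Nice.const 0, fun t th => ⟨gen_const 0 t th, fun i => D1_const i 0 t th⟩⟩
  | insert a s ha ih =>
    simp only [Finset.sum_insert ha]
    refine ⟨(hf a).add ih.1, fun t th => ⟨?_, fun i => ?_⟩⟩
    · rw [gen_add (hf a) ih.1, (ih.2 t th).1]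
    · rw [← (ih.2 t th).2 i]
      exact D1_add (hf a) ih.1 i t th

end Sums

section Comp

variable {μ : Measure (Rn n)} {f : ℝ → Rn n → ℝ} {φ φ₁ φ₂ : ℝ → ℝ}

/-- The chain rule for the generator. -/
lemma comp_rules (hf : Nice f) (h1 : ∀ t th, 1 ≤ f t th)
    (hd1 : ∀ x, 0 < x → HasDerivAt φ (φ₁ x) x) (hd2 : ∀ x, 0 < x → HasDerivAt φ₁ (φ₂ x) x)
    (hc : ∀ x, 0 < x → ContDiffAt ℝ 2 φ x) (h2 : ContinuousOn φ₂ (Set.Ioi 0)) :
    Nice (fun t th => φ (f t th)) ∧ ∀ t th, gen μ (fun t th => φ (f t th)) t th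
      = φ₁ (f t th) * gen μ f t th
        + 2⁻¹ * (φ₂ (f t th) * ∑ i, D1 i (f t) th ^ 2) := by
  have hpos : ∀ t th, 0 < f t th := fun t th => lt_of_lt_of_le one_pos (h1 t th)
  have hl : ∀ i t th s, HasDerivAt (line i (fun t th => φ (f t th)) t th)
      (φ₁ (line i f t th s) * deriv (line i f t th) s) s := fun i t th s =>
    (hd1 _ (hpos _ _)).comp s (diff_line hf.cd i t th s).hasDerivAt
  have e0 : ∀ i t th, line i f t th 0 = f t th := fun i t th => by simp [line]
  have e1 : ∀ i t th, D1 i ((fun t th => φ (f t th)) t) th = φ₁ (f t th) * D1 i (f t) th := by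
    intro i t th
    rw [D1_eq i (fun t th => φ (f t th)), (hl i t th 0).deriv, e0]
    rfl
  have e2 : ∀ i t th, D2 i ((fun t th => φ (f t th)) t) th
      = φ₂ (f t th) * (D1 i (f t) th * D1 i (f t) th) + φ₁ (f t th) * D2 i (f t) th := by
    intro i t th
    have h : deriv (line i (fun t th => φ (f t th)) t th)
        = fun s => φ₁ (line i f t th s) * deriv (line i f t th) s :=
      funext fun s => (hl i t th s).deriv
    have hm : HasDerivAt (fun s => φ₁ (line i f t th s) * deriv (line i f t th) s) _ 0 :=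
      ((hd2 (line i f t th 0) (hpos _ _)).comp 0 (diff_line hf.cd i t th 0).hasDerivAt).mul
        (diff_deriv_line hf.cd i t th 0).hasDerivAt
    rw [D2_eq i (fun t th => φ (f t th)), h, hm.deriv, D1_eq i f t th, D2_eq i f t th]
    simp only [Function.comp, e0]
    ring
  have et : ∀ t th, dt (fun t th => φ (f t th)) t th = φ₁ (f t th) * dt f t th := fun t th =>
    ((hd1 _ (hpos t th)).comp t (diff_time hf.cd th t).hasDerivAt).deriv
  have hb1 := hf.b0.comp h1 fun x hx => (hd2 x hx).continuousAt.continuousWithinAt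
  have hb2 := hf.b0.comp h1 h2
  refine ⟨⟨?_, hf.b0.comp h1 fun x hx => (hd1 x hx).continuousAt.continuousWithinAt,
    (hb1.mul hf.bt).of_eq et, fun i => (hb1.mul (hf.b1 i)).of_eq (e1 i),
    fun i => ((hb2.mul ((hf.b1 i).mul (hf.b1 i))).add (hb1.mul (hf.b2 i))).of_eq (e2 i)⟩, ?_⟩
  · exact contDiff_iff_contDiffAt.2 fun q => (hc _ (hpos q.1 q.2)).comp q hf.cd.contDiffAt
  · intro t th
    rw [gen_eq, gen_eq, et]
    simp only [e1, e2, Finset.sum_add_distrib, Finset.mul_sum, mul_add, pow_two]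
    ring_nf

end Comp

section Consequences

variable {μ : Measure (Rn n)} {f : ℝ → Rn n → ℝ}

lemma fderiv_apply (hf : Nice f) (q : ℝ × Rn n) (v : ℝ × Rn n) :
    fderiv ℝ (Function.uncurry f) q v = v.1 * dt f q.1 q.2 + ∑ i, v.2 i * D1 i (f q.1) q.2 := by
  have hd := hf.cd.differentiable (by norm_num) q
  set L := fderiv ℝ (Function.uncurry f) q
  have ht : dt f q.1 q.2 = L (1, 0) := by
    have h : HasDerivAt (fun s : ℝ => (s, q.2)) ((1 : ℝ), (0 : Rn n)) q.1 :=
      (hasDerivAt_id' q.1).prodMk (hasDerivAt_const _ _)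
    exact (hd.hasFDerivAt.comp_hasDerivAt (l := Function.uncurry f) q.1 h).deriv
  have hi : ∀ i, D1 i (f q.1) q.2 = L (0, unit i) := by
    intro i
    have h : HasDerivAt (fun s : ℝ => (q.1, q.2 + s • unit i)) ((0 : ℝ), unit i) 0 := by
      refine (hasDerivAt_const _ _).prodMk ?_
      simpa using (((hasDerivAt_id' (0 : ℝ)).smul_const (unit i)).const_add q.2)
    have hd' : HasFDerivAt (Function.uncurry f) L (q.1, q.2 + (0 : ℝ) • unit i) := by
      simpa using hd.hasFDerivAt
    exact (hd'.comp_hasDerivAt 0 h).deriv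
  have hv : v = v.1 • ((1 : ℝ), (0 : Rn n)) + ∑ i, v.2 i • ((0 : ℝ), unit i) := by
    refine Prod.ext (by simp [Prod.fst_sum]) ?_
    simp only [Prod.snd_add, Prod.smul_snd, smul_zero, zero_add, Prod.snd_sum]
    ext j
    simp [unit, WithLp.ofLp_sum, Finset.sum_apply, Pi.single_apply]
  rw [ht]
  simp only [hi]
  conv_lhs => rw [hv]
  simp only [map_add, map_sum, map_smul, smul_eq_mul]

lemma Nice.admissible (hf : Nice f) (T : ℝ) : Admissible T f := by
  obtain ⟨C0, h0⟩ := hf.b0
  obtain ⟨Ct, ht⟩ := hf.bt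
  choose C1 h1 using hf.b1
  choose C2 h2 using hf.b2
  refine ⟨hf.cd, |C0| + (|Ct| + ∑ i, |C1 i|) + ∑ i, |C2 i|, fun t _ th => ⟨?_, ?_, fun i => ?_⟩⟩
  · refine (h0 t th).trans ((le_abs_self _).trans ?_)
    have : 0 ≤ ∑ i, |C1 i| := Finset.sum_nonneg fun i _ => abs_nonneg _
    have : 0 ≤ ∑ i, |C2 i| := Finset.sum_nonneg fun i _ => abs_nonneg _
    have := abs_nonneg Ct
    linarith
  · refine ContinuousLinearMap.opNorm_le_bound _ (by positivity) fun v => ?_
    rw [fderiv_apply hf, Real.norm_eq_abs]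
    refine (abs_add_le _ _).trans ?_
    have hv1 : |v.1| ≤ ‖v‖ := norm_fst_le v
    have hv2 : ∀ i, |v.2 i| ≤ ‖v‖ := fun i =>
      le_trans (PiLp.norm_apply_le v.2 i) (norm_snd_le v)
    have a1 : |v.1 * dt f t th| ≤ ‖v‖ * |Ct| := by
      rw [abs_mul]
      exact mul_le_mul hv1 ((ht t th).trans (le_abs_self _)) (abs_nonneg _) (norm_nonneg _)
    have a2 : |∑ i, v.2 i * D1 i (f t) th| ≤ ∑ i, ‖v‖ * |C1 i| := by
      refine (Finset.abs_sum_le_sum_abs _ _).trans (Finset.sum_le_sum fun i _ => ?_)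
      rw [abs_mul]
      exact mul_le_mul (hv2 i) ((h1 i t th).trans (le_abs_self _)) (abs_nonneg _) (norm_nonneg _)
    rw [← Finset.mul_sum] at a2
    have : 0 ≤ (∑ i, |C2 i|) * ‖v‖ := by positivity
    nlinarith [abs_nonneg C0, norm_nonneg v]
  · refine (h2 i t th).trans ((le_abs_self _).trans ?_)
    have : 0 ≤ ∑ i, |C1 i| := Finset.sum_nonneg fun i _ => abs_nonneg _
    have := Finset.single_le_sum (f := fun i => |C2 i|) (fun j _ => abs_nonneg _)
      (Finset.mem_univ i)
    have := abs_nonneg Ct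
    have := abs_nonneg C0
    linarith

lemma Nice.continuous_space (hf : Nice f) (t : ℝ) : Continuous (f t) :=
  hf.cd.continuous.comp (continuous_const.prodMk continuous_id)

lemma Nice.continuous_dt (hf : Nice f) (t : ℝ) : Continuous (dt f t) := by
  have h : ∀ th, dt f t th = fderiv ℝ (Function.uncurry f) (t, th) ((1 : ℝ), 0) := fun th => by
    rw [fderiv_apply hf]
    simp
  rw [funext h]
  exact ((hf.cd.continuous_fderiv (by norm_num)).comp
    (continuous_const.prodMk continuous_id)).clm_apply continuous_const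

lemma Nice.continuous_D1 (hf : Nice f) (i : Fin n) (t : ℝ) :
    Continuous fun th => D1 i (f t) th := by
  have h : ∀ th, D1 i (f t) th = fderiv ℝ (Function.uncurry f) (t, th) ((0 : ℝ), unit i) :=
    fun th => by
      rw [fderiv_apply hf]
      simp [unit]
  rw [funext h]
  exact ((hf.cd.continuous_fderiv (by norm_num)).comp
    (continuous_const.prodMk continuous_id)).clm_apply continuous_const

lemma Nice.continuous_D2 (hf : Nice f) (i : Fin n) (t : ℝ) :
    Continuous fun th => D2 i (f t) th := by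
  set g : Rn n → ℝ := fun th => fderiv ℝ (Function.uncurry f) (t, th) ((0 : ℝ), unit i)
  have hg : ContDiff ℝ 1 g :=
    ((hf.cd.fderiv_right (m := 1) (by norm_num)).comp
      (contDiff_const.prodMk contDiff_id)).clm_apply contDiff_const
  have h : ∀ th, D2 i (f t) th = fderiv ℝ g th (unit i) := by
    intro th
    have he : (fun s : ℝ => D1 i (f t) (th + s • unit i)) = fun s => g (th + s • unit i) := by
      ext s
      simp only [g, fderiv_apply hf]
      simp [unit]
    unfold D2
    rw [he]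
    have hl : HasDerivAt (fun s : ℝ => th + s • unit i) (unit i) 0 := by
      simpa using (((hasDerivAt_id' (0 : ℝ)).smul_const (unit i)).const_add th)
    have hd' : HasFDerivAt g (fderiv ℝ g th) (th + (0 : ℝ) • unit i) := by
      simpa using (hg.differentiable (by norm_num) th).hasFDerivAt
    exact (hd'.comp_hasDerivAt 0 hl).deriv
  rw [funext h]
  exact (hg.continuous_fderiv (by norm_num)).clm_apply continuous_const

lemma gen_bounded (hf : Nice f) (hb : ∀ i, Bd fun t th => ex μ t th fun x => x i)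
    (hc : ∀ i t, Continuous fun th => ex μ t th fun x => x i) (t : ℝ) :
    Continuous (gen μ f t) ∧ ∃ C, ∀ th, |gen μ f t th| ≤ C := by
  refine ⟨((hf.continuous_dt t).add (continuous_finsetSum _ fun i _ =>
    (hc i t).mul (hf.continuous_D1 i t))).add
      (continuous_const.mul (continuous_finsetSum _ fun i _ => hf.continuous_D2 i t)), ?_⟩
  obtain ⟨C, hC⟩ := (hf.bt.add (Bd.sum Finset.univ fun i _ => (hb i).mul (hf.b1 i))).add
    ((Bd.const (2⁻¹ : ℝ)).mul (Bd.sum Finset.univ fun i _ => hf.b2 i))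
  exact ⟨C, fun th => hC t th⟩

end Consequences

end M5

end Vale.Agent.P245
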