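import Vale.Agent.P245.M5.Trace
import Vale.Agent.P245.M5.Nice

/-!
# P245, module M5: the spectral tail

`tr (1 + A_t) ^ p` is a supersolution up to lower-order terms, so the tilted covariance is bounded
except with probability `exp (-c / t)`.
-/

namespace Vale.Agent.P245

open MeasureTheory Matrix
open scoped RealInnerProductSpace ENNReal

namespace M5

variable {n : ℕ} {μ : Measure (Rn n)}

/-- Standing hypotheses. -/
structure Ctx (μ : Measure (Rn n)) : Prop where
  prob : IsProbabilityMeasure μ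
  slc : IsSLC 0 μ
  bdd : BddSupp μ
  tiltSLC : TiltSLC
  calc_ex : ExCalculus

lemma Ctx.tilt_prob (h : Ctx μ) (t : ℝ) (th : Rn n) : IsProbabilityMeasure (tilt μ t th) :=
  (h.tiltSLC n 0 t th μ h.prob h.bdd h.slc).1

lemma Ctx.tilt_bdd (h : Ctx μ) (t : ℝ) (th : Rn n) : BddSupp (tilt μ t th) :=
  (h.tiltSLC n 0 t th μ h.prob h.bdd h.slc).2.1

lemma Ctx.tilt_slc (h : Ctx μ) (t : ℝ) (th : Rn n) : IsSLC t (tilt μ t th) := by
  simpa using (h.tiltSLC n 0 t th μ h.prob h.bdd h.slc).2.2.1

lemma Ctx.tilt_int (h : Ctx μ) (t : ℝ) (th : Rn n) (f : Rn n → ℝ) :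
    ∫ x, f x ∂(tilt μ t th) = ex μ t th f :=
  (h.tiltSLC n 0 t th μ h.prob h.bdd h.slc).2.2.2 f

lemma Ctx.ae_bound (h : Ctx μ) {f : Rn n → ℝ} (hf : Continuous f) :
    ∃ M, 0 ≤ M ∧ ∀ᵐ x ∂μ, |f x| ≤ M := by
  obtain ⟨R, hR⟩ := h.bdd
  obtain ⟨M, hM⟩ :=
    (isCompact_closedBall (0 : Rn n) R).exists_bound_of_continuousOn hf.continuousOn
  refine ⟨max M 0, le_max_right _ _, ?_⟩
  filter_upwards [hR] with x hx
  exact (hM x (by simpa using hx)).trans (le_max_left _ _)

lemma Ctx.ex_facts (h : Ctx μ) {f : Rn n → ℝ} (hf : Continuous f) :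
    ContDiff ℝ 2 (Function.uncurry fun t th => ex μ t th f) ∧
      (∀ t th i, HasDerivAt (fun s : ℝ => ex μ t (th + s • unit i) f)
        (cv μ t th f fun x => x i) 0) ∧
      ∀ t th, gen μ (fun s q => ex μ s q f) t th = 0 := by
  obtain ⟨M, _, hM⟩ := h.ae_bound hf
  exact h.calc_ex n μ h.prob h.bdd f hf.measurable ⟨M, hM⟩

lemma Ctx.ex_bd (h : Ctx μ) {f : Rn n → ℝ} (hf : Continuous f) :
    Bd fun t th => ex μ t th f := by
  obtain ⟨M, _, hM⟩ := h.ae_bound hf
  refine ⟨M, fun t th => ?_⟩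
  have := h.tilt_prob t th
  dsimp only
  rw [← h.tilt_int t th f, ← Real.norm_eq_abs]
  refine (norm_integral_le_of_norm_le_const (C := M) ?_).trans (by simp)
  exact (tilted_absolutelyContinuous μ _).ae_le hM

lemma Ctx.D1_ex (h : Ctx μ) {f : Rn n → ℝ} (hf : Continuous f) (i : Fin n) (t : ℝ) (th : Rn n) :
    D1 i (fun q => ex μ t q f) th
      = ex μ t th (fun x => f x * x i) - ex μ t th f * ex μ t th (fun x => x i) :=
  ((h.ex_facts hf).2.1 t th i).deriv

lemma Ctx.nice_ex (h : Ctx μ) {f : Rn n → ℝ} (hf : Continuous f) :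
    Nice fun t th => ex μ t th f := by
  have hx : ∀ i : Fin n, Continuous fun x : Rn n => x i := fun i => by fun_prop
  have hcv : ∀ (i : Fin n) {g : Rn n → ℝ}, Continuous g →
      Bd fun t th => cv μ t th g fun x => x i := by
    intro i g hg
    exact ((h.ex_bd (hg.mul (hx i))).add
      ((Bd.const (-1)).mul ((h.ex_bd hg).mul (h.ex_bd (hx i))))).of_eq
        fun t th => by simp only [cv, Pi.mul_def]; ring
  have b1 : ∀ i, Bd fun t th => D1 i (fun q => ex μ t q f) th := fun i =>
    (hcv i hf).of_eq fun t th => ((h.ex_facts hf).2.1 t th i).deriv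
  have b2 : ∀ i, Bd fun t th => D2 i (fun q => ex μ t q f) th := by
    intro i
    refine ((hcv i (hf.mul (hx i))).add ((Bd.const (-1)).mul (((hcv i hf).mul (h.ex_bd (hx i))).add
      ((h.ex_bd hf).mul (hcv i (hx i)))))).of_eq fun t th => ?_
    have e : (fun s : ℝ => D1 i (fun q => ex μ t q f) (th + s • unit i))
        = fun s => ex μ t (th + s • unit i) (fun x => f x * x i)
          - ex μ t (th + s • unit i) f * ex μ t (th + s • unit i) (fun x => x i) :=
      funext fun s => h.D1_ex hf i t _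
    have hfi : Continuous fun x : Rn n => f x * x i := hf.mul (hx i)
    unfold D2
    rw [e]
    refine (((h.ex_facts hfi).2.1 t th i).sub
      (((h.ex_facts hf).2.1 t th i).mul ((h.ex_facts (hx i)).2.1 t th i))).deriv.trans ?_
    simp only [zero_smul, add_zero, Pi.mul_def]
    ring
  refine ⟨(h.ex_facts hf).1, h.ex_bd hf, ?_, b1, b2⟩
  refine ((Bd.const (-1)).mul ((Bd.sum Finset.univ fun i _ => (h.ex_bd (hx i)).mul (b1 i)).add
    ((Bd.const (2⁻¹ : ℝ)).mul (Bd.sum Finset.univ fun i _ => b2 i)))).of_eq fun t th => ?_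
  have hg := (h.ex_facts hf).2.2 t th
  rw [gen_eq] at hg
  linarith

lemma D1_const' (i : Fin n) (c : ℝ) (th : Rn n) : D1 i (fun _ : Rn n => c) th = 0 :=
  deriv_const 0 c

/-- An entry of `1 + A` as a function of `(t, th)`. -/
noncomputable def Mf (μ : Measure (Rn n)) (i j : Fin n) (t : ℝ) (th : Rn n) : ℝ :=
  (1 : Matrix (Fin n) (Fin n) ℝ) i j + (ex μ t th (fun x => x i * x j)
    + -1 * (ex μ t th (fun x => x i) * ex μ t th fun x => x j))

lemma cl_unit (h : Ctx μ) (t : ℝ) (th : Rn n) (i : Fin n) (x : Rn n) :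
    cl (tilt μ t th) (unit i) x = x i - ex μ t th fun z => z i := by
  have e : ∀ z : Rn n, ⟪z, unit i⟫ = z i := fun z => by
    simp [unit, EuclideanSpace.inner_single_right]
  simp only [cl, e, h.tilt_int]

lemma covM_entry (h : Ctx μ) (t : ℝ) (th : Rn n) (i j : Fin n) :
    covM (tilt μ t th) i j = cv μ t th (fun x => x i) fun x => x j := by
  have := h.tilt_prob t th
  have hb := h.tilt_bdd t th
  simp only [covM, Matrix.of_apply, cl_unit h]
  have e : ∀ x : Rn n, (x i - ex μ t th fun z => z i) * (x j - ex μ t th fun z => z j)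
      = x i * x j + (-(ex μ t th fun z => z j) * x i + (-(ex μ t th fun z => z i) * x j
        + (ex μ t th fun z => z i) * ex μ t th fun z => z j)) := fun x => by ring
  simp only [e]
  rw [integral_add (integrable_bdd hb (by fun_prop)) (integrable_bdd hb (by fun_prop)),
    integral_add (integrable_bdd hb (by fun_prop)) (integrable_bdd hb (by fun_prop)),
    integral_add (integrable_bdd hb (by fun_prop)) (integrable_bdd hb (by fun_prop))]
  simp only [integral_const_mul, integral_const, probReal_univ, smul_eq_mul, one_mul]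
  simp only [h.tilt_int, cv]
  ring

lemma Mf_eq (h : Ctx μ) (t : ℝ) (th : Rn n) (i j : Fin n) :
    Mf μ i j t th = (1 + covM (tilt μ t th)) i j := by
  rw [Matrix.add_apply, covM_entry h, Mf, cv]
  ring

lemma thirdM_entry (h : Ctx μ) (t : ℝ) (th : Rn n) (i j k : Fin n) :
    thirdM (tilt μ t th) k i j
      = cv μ t th (fun x => x i * x j) (fun x => x k)
        - cv μ t th (fun x => x i) (fun x => x k) * ex μ t th (fun x => x j)
        - ex μ t th (fun x => x i) * cv μ t th (fun x => x j) (fun x => x k) := by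
  have := h.tilt_prob t th
  have hb := h.tilt_bdd t th
  simp only [thirdM, S3, Matrix.of_apply, cl_unit h, cv]
  generalize ha : (ex μ t th fun z => z i) = a
  generalize hbj : (ex μ t th fun z => z j) = b
  generalize hc : (ex μ t th fun z => z k) = c
  have e : ∀ x : Rn n, (x i - a) * (x j - b) * (x k - c)
      = x i * x j * x k + (-c * (x i * x j) + (-b * (x i * x k) + (-a * (x j * x k)
        + (b * c * x i + (a * c * x j + (a * b * x k + -(a * b * c))))))) := fun x => by ring
  simp only [e]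
  rw [integral_add (integrable_bdd hb (by fun_prop)) (integrable_bdd hb (by fun_prop)),
    integral_add (integrable_bdd hb (by fun_prop)) (integrable_bdd hb (by fun_prop)),
    integral_add (integrable_bdd hb (by fun_prop)) (integrable_bdd hb (by fun_prop)),
    integral_add (integrable_bdd hb (by fun_prop)) (integrable_bdd hb (by fun_prop)),
    integral_add (integrable_bdd hb (by fun_prop)) (integrable_bdd hb (by fun_prop)),
    integral_add (integrable_bdd hb (by fun_prop)) (integrable_bdd hb (by fun_prop)),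
    integral_add (integrable_bdd hb (by fun_prop)) (integrable_bdd hb (by fun_prop))]
  simp only [integral_const_mul, integral_const, probReal_univ, smul_eq_mul, one_mul]
  simp only [h.tilt_int, ha, hbj, hc]
  ring

lemma Mf_rules (h : Ctx μ) (i j : Fin n) :
    Nice (Mf μ i j) ∧ ∀ t th,
      (∀ k, D1 k (Mf μ i j t) th = thirdM (tilt μ t th) k i j) ∧
      gen μ (Mf μ i j) t th = -(covM (tilt μ t th) * covM (tilt μ t th)) i j := by
  have n1 : Nice fun t th => ex μ t th fun x => x i * x j := h.nice_ex (by fun_prop)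
  have ni : Nice fun t th => ex μ t th fun x => x i := h.nice_ex (by fun_prop)
  have nj : Nice fun t th => ex μ t th fun x => x j := h.nice_ex (by fun_prop)
  have nm := ni.mul nj
  have n2 := (Nice.const (n := n) (-1)).mul nm
  have n3 := n1.add n2
  refine ⟨(Nice.const _).add n3, fun t th => ⟨fun k => ?_, ?_⟩⟩
  · change D1 k ((fun t th => (1 : Matrix (Fin n) (Fin n) ℝ) i j + (ex μ t th (fun x => x i * x j)
      + -1 * (ex μ t th (fun x => x i) * ex μ t th fun x => x j))) t) th = _
    rw [D1_add (Nice.const _) n3, D1_const', D1_add n1 n2, D1_mul (Nice.const _) nm,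
      D1_const', D1_mul ni nj, h.D1_ex (by fun_prop), h.D1_ex (by fun_prop),
      h.D1_ex (by fun_prop), thirdM_entry h]
    simp only [cv]
    ring
  · change gen μ (fun t th => (1 : Matrix (Fin n) (Fin n) ℝ) i j + (ex μ t th (fun x => x i * x j)
      + -1 * (ex μ t th (fun x => x i) * ex μ t th fun x => x j))) t th = _
    rw [gen_add (Nice.const _) n3, gen_const, gen_add n1 n2, gen_mul (Nice.const _) nm,
      gen_const, gen_mul ni nj, (h.ex_facts (by fun_prop)).2.2, (h.ex_facts (by fun_prop)).2.2,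
      (h.ex_facts (by fun_prop)).2.2]
    simp only [D1_const', zero_mul, Finset.sum_const_zero, zero_add, add_zero, mul_zero,
      Matrix.mul_apply, neg_one_mul]
    refine congrArg Neg.neg (Finset.sum_congr rfl fun k _ => ?_)
    rw [covM_entry h, covM_entry h, h.D1_ex (by fun_prop), h.D1_ex (by fun_prop)]
    simp only [cv]
    rw [show (fun x : Rn n => x k * x j) = fun x => x j * x k from funext fun x => mul_comm _ _]
    ring

/-- An entry of `(1 + A) ^ m`. -/
noncomputable def Pf (μ : Measure (Rn n)) (m : ℕ) (i j : Fin n) (t : ℝ) (th : Rn n) : ℝ :=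
  ((1 + covM (tilt μ t th)) ^ m) i j

lemma Pf_rules (h : Ctx μ) (m : ℕ) :
    (∀ i j, Nice (Pf μ m i j)) ∧ ∀ t th,
      let M := 1 + covM (tilt μ t th)
      let A := covM (tilt μ t th)
      let T := thirdM (tilt μ t th)
      (∀ k, (Matrix.of fun i j => D1 k (Pf μ m i j t) th)
        = ∑ a ∈ Finset.range m, M ^ a * T k * M ^ (m - 1 - a)) ∧
      (Matrix.of fun i j => gen μ (Pf μ m i j) t th)
        = ∑ b ∈ Finset.range m, M ^ b * (-(A * A)) * M ^ (m - 1 - b)
          + ∑ k, ∑ b ∈ Finset.range m, (∑ a ∈ Finset.range b, M ^ a * T k * M ^ (b - 1 - a))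
              * T k * M ^ (m - 1 - b) := by
  induction m with
  | zero =>
    have e : ∀ i j, Pf μ 0 i j = fun _ _ => (1 : Matrix (Fin n) (Fin n) ℝ) i j := fun i j => by
      funext t th
      simp [Pf]
    refine ⟨fun i j => by rw [e]; exact Nice.const _, fun t th => ⟨fun k => ?_, ?_⟩⟩
    · ext i j
      simp only [Matrix.of_apply, e]
      rw [D1_const']
      simp
    · ext i j
      simp only [Matrix.of_apply, e, gen_const]
      simp
  | succ m ih =>
    have e : ∀ i j, Pf μ (m + 1) i j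
        = fun t th => ∑ l, (fun t th => Pf μ m i l t th * Mf μ l j t th) t th := fun i j => by
      funext t th
      simp only [Pf, Mf_eq h, pow_succ, Matrix.mul_apply]
    have hp : ∀ i j l, Nice fun t th => Pf μ m i l t th * Mf μ l j t th :=
      fun i j l => (ih.1 i l).mul (Mf_rules h l j).1
    refine ⟨fun i j => by rw [e]; exact (sum_rules (μ := μ) (hp i j) Finset.univ).1, fun t th => ?_⟩
    intro M A T
    obtain ⟨ihD, ihG⟩ := ih.2 t th
    have hD : ∀ k, (Matrix.of fun i j => D1 k (Pf μ (m + 1) i j t) th)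
        = (Matrix.of fun i j => D1 k (Pf μ m i j t) th) * M + M ^ m * T k := by
      intro k
      ext i j
      simp only [Matrix.of_apply, Matrix.add_apply, Matrix.mul_apply, e,
        ← Finset.sum_add_distrib]
      rw [((sum_rules (μ := μ) (hp i j) Finset.univ).2 t th).2 k]
      refine Finset.sum_congr rfl fun l _ => ?_
      rw [D1_mul (ih.1 i l) (Mf_rules h l j).1, ((Mf_rules h l j).2 t th).1, Mf_eq h]
      rfl
    have hG : (Matrix.of fun i j => gen μ (Pf μ (m + 1) i j) t th)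
        = (Matrix.of fun i j => gen μ (Pf μ m i j) t th) * M + M ^ m * -(A * A)
          + ∑ k, (Matrix.of fun i j => D1 k (Pf μ m i j t) th) * T k := by
      ext i j
      simp only [Matrix.of_apply, Matrix.add_apply, Matrix.mul_apply, Matrix.sum_apply, e]
      rw [((sum_rules (μ := μ) (hp i j) Finset.univ).2 t th).1, Finset.sum_comm,
        ← Finset.sum_add_distrib, ← Finset.sum_add_distrib]
      refine Finset.sum_congr rfl fun l _ => ?_
      rw [gen_mul (ih.1 i l) (Mf_rules h l j).1, ((Mf_rules h l j).2 t th).2, Mf_eq h]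
      simp only [((Mf_rules h l j).2 t th).1]
      simp [Pf, M, A, T, Matrix.mul_apply]
    have hshift : ∀ b ∈ Finset.range m, M ^ (m - 1 - b) * M = M ^ (m + 1 - 1 - b) := by
      intro b hb
      rw [Finset.mem_range] at hb
      rw [← pow_succ]
      congr 1
      omega
    refine ⟨fun k => ?_, ?_⟩
    · rw [hD, ihD, Finset.sum_mul, Finset.sum_range_succ]
      congr 1
      · exact Finset.sum_congr rfl fun a ha => by rw [mul_assoc, hshift a ha]
      · simp
    · rw [hG, ihG]
      simp only [ihD, add_mul, Finset.sum_mul, Finset.sum_range_succ, Finset.sum_add_distrib,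
        mul_assoc]
      simp only [← mul_assoc]
      have l1 : ∑ b ∈ Finset.range m, M ^ b * -(A * A) * M ^ (m - 1 - b) * M
          = ∑ b ∈ Finset.range m, M ^ b * -(A * A) * M ^ (m + 1 - 1 - b) :=
        Finset.sum_congr rfl fun b hb => by rw [mul_assoc, hshift b hb]
      have l2 : ∑ k, ∑ b ∈ Finset.range m, ∑ a ∈ Finset.range b,
            M ^ a * T k * M ^ (b - 1 - a) * T k * M ^ (m - 1 - b) * M
          = ∑ k, ∑ b ∈ Finset.range m, ∑ a ∈ Finset.range b,
            M ^ a * T k * M ^ (b - 1 - a) * T k * M ^ (m + 1 - 1 - b) :=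
        Finset.sum_congr rfl fun k _ => Finset.sum_congr rfl fun b hb =>
          Finset.sum_congr rfl fun a _ => by rw [mul_assoc, hshift b hb]
      rw [l1, l2]
      simp only [Nat.add_sub_cancel, Nat.sub_self, pow_zero, mul_one]
      abel

/-- The potential as a function of `(t, th)`. -/
noncomputable def Gf (μ : Measure (Rn n)) (p : ℕ) (t : ℝ) (th : Rn n) : ℝ :=
  pot p (tilt μ t th)

lemma Gf_rules (h : Ctx μ) (p : ℕ) :
    Nice (Gf μ p) ∧ ∀ t th,
      gen μ (Gf μ p) t th = (Matrix.of fun i j => gen μ (Pf μ p i j) t th).trace ∧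
      ∀ k, D1 k (Gf μ p t) th = (Matrix.of fun i j => D1 k (Pf μ p i j t) th).trace := by
  have e : Gf μ p = fun t th => ∑ i, (fun i => Pf μ p i i) i t th := rfl
  have := sum_rules (μ := μ) (fun i => (Pf_rules h p).1 i i) Finset.univ
  rw [e]
  exact ⟨this.1, fun t th => ⟨(this.2 t th).1, fun k => (this.2 t th).2 k⟩⟩

lemma gen_Gf_le (h : Ctx μ) (hI : ImprovedPoincare) {p : ℕ} (hn : 1 ≤ n) (hp : 2 ≤ p)
    (hnp : (n : ℝ) ≤ 2 ^ (p - 1)) {t : ℝ} (ht : 0 < t) (th : Rn n) :
    gen μ (Gf μ p) t th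
      ≤ (p : ℝ) * p * (24 * (Gf μ p t th * Real.sqrt (effU p (tilt μ t th) / t))) := by
  haveI := h.tilt_prob t th
  have hb := h.tilt_bdd t th
  obtain ⟨-, hG⟩ := (Pf_rules h p).2 t th
  rw [((Gf_rules h p).2 t th).1, hG, trace_add, trace_sum, trace_sum]
  set B := 24 * (Gf μ p t th * Real.sqrt (effU p (tilt μ t th) / t))
  have hB : 0 ≤ B := mul_nonneg (by norm_num) (mul_nonneg
    (zero_le_one.trans (one_le_pot hn hb p)) (Real.sqrt_nonneg _))
  refine add_le_of_nonpos_of_le (Finset.sum_nonpos fun b _ => ?_) ?_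
  · rw [mul_neg, neg_mul, trace_neg, neg_nonpos]
    exact trace_sq_nonneg hb _ _
  simp only [Finset.sum_mul, trace_sum]
  rw [Finset.sum_comm]
  calc ∑ b ∈ Finset.range p, ∑ k, ∑ a ∈ Finset.range b,
        ((1 + covM (tilt μ t th)) ^ a * thirdM (tilt μ t th) k
          * (1 + covM (tilt μ t th)) ^ (b - 1 - a) * thirdM (tilt μ t th) k
          * (1 + covM (tilt μ t th)) ^ (p - 1 - b)).trace
      ≤ ∑ b ∈ Finset.range p, ∑ _a ∈ Finset.range b, B := by
        refine Finset.sum_le_sum fun b hbm => ?_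
        rw [Finset.sum_comm]
        refine Finset.sum_le_sum fun a ha => ?_
        rw [Finset.mem_range] at hbm ha
        exact trace_two_le hI ht (h.tilt_slc t th) hn hb hp hnp (by omega)
    _ ≤ ∑ b ∈ Finset.range p, (p : ℝ) * B := by
        refine Finset.sum_le_sum fun b hb' => ?_
        rw [Finset.sum_const, Finset.card_range, nsmul_eq_mul]
        rw [Finset.mem_range] at hb'
        exact mul_le_mul_of_nonneg_right (by exact_mod_cast hb'.le) hB
    _ = (p : ℝ) * p * B := by simp [mul_assoc]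

lemma grad_Gf_le (h : Ctx μ) {C : ℝ} (hC : 0 ≤ C)
    (hB : ∀ (ν : Measure (Rn n)), IsProbabilityMeasure ν → IsSLC 0 ν → BddSupp ν → ∀ v : Rn n,
      ∫ x, |cl ν v x| ^ 3 ∂ν ≤ C * (vr ν fun x => ⟪x, v⟫) ^ ((3 : ℝ) / 2))
    {p : ℕ} (hn : 1 ≤ n) (hp : p ≠ 0) {t : ℝ} (ht : 0 ≤ t) (th : Rn n) :
    ∑ k, D1 k (Gf μ p t) th ^ 2
      ≤ ((p : ℝ) * (C * (Real.sqrt (effU p (tilt μ t th)) * Gf μ p t th))) ^ 2 := by
  haveI := h.tilt_prob t th
  have hb := h.tilt_bdd t th
  set g : Rn n := WithLp.toLp 2 fun k => D1 k (Gf μ p t) th with hg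
  have hgn : ∑ k, D1 k (Gf μ p t) th ^ 2 = ‖g‖ ^ 2 := by
    rw [EuclideanSpace.real_norm_sq_eq]
  rw [hgn]
  refine pow_le_pow_left₀ (norm_nonneg _) ?_ 2
  set B := C * (Real.sqrt (effU p (tilt μ t th)) * Gf μ p t th)
  have hB0 : 0 ≤ B := mul_nonneg hC (mul_nonneg (Real.sqrt_nonneg _)
    (zero_le_one.trans (one_le_pot hn hb p)))
  rcases eq_or_ne g 0 with h0 | h0
  · rw [h0, norm_zero]
    positivity
  have key : ∀ v : Rn n, ‖v‖ ≤ 1 → ∑ k, v k * D1 k (Gf μ p t) th ≤ p * B := by
    intro v hv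
    obtain ⟨hD, -⟩ := (Pf_rules h p).2 t th
    simp only [((Gf_rules h p).2 t th).2, hD, trace_sum, Finset.mul_sum]
    rw [Finset.sum_comm]
    calc ∑ a ∈ Finset.range p, ∑ k, v k * ((1 + covM (tilt μ t th)) ^ a
          * thirdM (tilt μ t th) k * (1 + covM (tilt μ t th)) ^ (p - 1 - a)).trace
        ≤ ∑ _a ∈ Finset.range p, B := by
          refine Finset.sum_le_sum fun a ha => ?_
          rw [Finset.mem_range] at ha
          exact trace_one_le hC (hB _ (h.tilt_prob t th) (IsSLC.mono ht (h.tilt_slc t th)) hb)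
            hn hb hp (by omega) hv
      _ = p * B := by simp
  have := key (‖g‖⁻¹ • g) (le_of_eq (norm_smul_inv_norm h0))
  have e : ∑ k, (‖g‖⁻¹ • g) k * D1 k (Gf μ p t) th = ‖g‖ := by
    have : ∀ k, (‖g‖⁻¹ • g) k * D1 k (Gf μ p t) th = ‖g‖⁻¹ * D1 k (Gf μ p t) th ^ 2 := fun k => by
      simp [hg, pow_two, mul_assoc]
    simp only [this, ← Finset.mul_sum, hgn]
    field_simp [norm_ne_zero_iff.2 h0]
  linarith

end M5

open M5

/-- M5: the spectral tail of the tilted covariance. -/
theorem spectralTail (hT : TiltSLC) (hBor : BorellThree) (hE : ExCalculus) (hGen : Generator)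
    (hI : ImprovedPoincare) : SpectralTail := by
  obtain ⟨CB, hCB, hBor⟩ := hBor
  set α : ℝ := 1 / (32 * (CB ^ 2 / 8 + 1)) with hα
  have hα0 : 0 < α := by positivity
  refine ⟨min (α / 16) ((1 / 2304) ^ 2), 64, 1, lt_min (by positivity) (by norm_num),
    by norm_num, by norm_num, fun n μ hμ hs hb hsub t ht htc => ?_⟩
  rw [one_mul]
  set c := min (α / 16) ((1 / 2304 : ℝ) ^ 2)
  rcases Nat.eq_zero_or_pos n with hn | hn
  · subst hn
    refine le_trans (measure_mono (t := ∅) ?_) (by simp)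
    rintro th ⟨v, hv, -⟩
    rw [Subsingleton.elim v 0, norm_zero] at hv
    exact absurd hv zero_ne_one
  have hctx : Ctx μ := ⟨hμ, hs, hb, hT, hE⟩
  set p := Nat.log 2 n + 2 with hpdef
  have hp2 : 2 ≤ p := by omega
  have hp0 : p ≠ 0 := by omega
  have hnp : (n : ℝ) ≤ 2 ^ (p - 1) := by
    have := Nat.lt_pow_succ_log_self one_lt_two n
    exact_mod_cast this.le
  have hnp' : (n : ℝ) ≤ 2 ^ p :=
    hnp.trans (pow_le_pow_right₀ one_le_two (Nat.sub_le p 1))
  set L := Real.log (n + 1) with hL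
  have hL0 : 0 ≤ L := Real.log_nonneg (by simp)
  have hpL : (p : ℝ) ≤ 3 * (1 + L) := by
    have h1 : (Nat.log 2 n : ℝ) * Real.log 2 ≤ L := by
      rw [← Real.log_pow]
      refine Real.log_le_log (by positivity) ?_
      have := Nat.pow_log_le_self 2 hn.ne'
      have h' : (2 : ℝ) ^ Nat.log 2 n ≤ n := by exact_mod_cast this
      linarith
    have h3 : (2 / 3 : ℝ) ≤ Real.log 2 := by linarith [Real.log_two_gt_d9]
    have h4 := mul_le_mul_of_nonneg_left h3 (Nat.cast_nonneg (α := ℝ) (Nat.log 2 n))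
    rw [hpdef]
    push_cast
    linarith
  set s := α / t with hsdef
  have hs0 : 0 < s := by positivity
  set r : ℝ := (2 * p : ℝ)⁻¹ with hr
  set φ : ℝ → ℝ := fun g => Real.exp (-s * g ^ (-r)) with hφ
  set φ₁ : ℝ → ℝ := fun g => Real.exp (-s * g ^ (-r)) * (-s * (-r * g ^ (-r - 1))) with hφ₁
  set φ₂ : ℝ → ℝ := fun g =>
    Real.exp (-s * g ^ (-r)) * (-s * (-r * g ^ (-r - 1))) * (-s * (-r * g ^ (-r - 1)))
      + Real.exp (-s * g ^ (-r)) * (-s * (-r * ((-r - 1) * g ^ (-r - 1 - 1)))) with hφ₂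
  have hd1 : ∀ x, 0 < x → HasDerivAt φ (φ₁ x) x := fun x hx =>
    ((Real.hasDerivAt_rpow_const (Or.inl hx.ne')).const_mul (-s)).exp
  have hd2 : ∀ x, 0 < x → HasDerivAt φ₁ (φ₂ x) x := fun x hx =>
    (hd1 x hx).mul (((Real.hasDerivAt_rpow_const (Or.inl hx.ne')).const_mul (-r)).const_mul (-s))
  have hcd : ∀ x, 0 < x → ContDiffAt ℝ 2 φ x := fun x hx =>
    (contDiffAt_const.mul (Real.contDiffAt_rpow_const_of_ne hx.ne')).exp
  have hc2 : ContinuousOn φ₂ (Set.Ioi 0) := by
    intro x hx
    have hx' : x ≠ 0 := ne_of_gt hx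
    refine ContinuousAt.continuousWithinAt ?_
    simp only [hφ₂]
    fun_prop (disch := simp [hx'])
  have hG1 : ∀ τ th, 1 ≤ Gf μ p τ th := by
    intro τ th
    haveI := hctx.tilt_prob τ th
    exact one_le_pot hn (hctx.tilt_bdd τ th) p
  obtain ⟨hFn, hFgen⟩ := comp_rules (μ := μ) (Gf_rules hctx p).1 hG1 hd1 hd2 hcd hc2
  set F : ℝ → Rn n → ℝ := fun τ th => φ (Gf μ p τ th) with hF
  set q : ℝ → Rn n → ℝ := fun τ th => Gf μ p τ th ^ (-r)
  have hq : ∀ τ th, q τ th = (Real.sqrt (effU p (tilt μ τ th)))⁻¹ := by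
    intro τ th
    have hG0 : 0 ≤ Gf μ p τ th := zero_le_one.trans (hG1 τ th)
    simp only [q, Gf] at hG0 ⊢
    rw [effU, Real.sqrt_eq_rpow, ← Real.rpow_mul hG0, ← Real.rpow_neg hG0]
    congr 1
    rw [hr]
    ring
  have hBν : ∀ (ν : Measure (Rn n)), IsProbabilityMeasure ν → IsSLC 0 ν → BddSupp ν →
      ∀ v : Rn n, ∫ x, |cl ν v x| ^ 3 ∂ν ≤ CB * (vr ν fun x => ⟪x, v⟫) ^ ((3 : ℝ) / 2) :=
    fun ν h1 h2 h3 v => hBor n ν h1 h2 h3 v (∫ z, ⟪z, v⟫ ∂ν)
  -- the differential inequality
  have hgen : ∀ τ, 0 < τ → ∀ th, gen μ F τ th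
      ≤ (12 * p * s / Real.sqrt τ + CB ^ 2 / 8 * s ^ 2) * F τ th := by
    intro τ hτ th
    haveI := hctx.tilt_prob τ th
    set G := Gf μ p τ th with hGdef
    set U := effU p (tilt μ τ th) with hU
    have hG0 : 0 < G := lt_of_lt_of_le one_pos (hG1 τ th)
    have hU0 : 0 < U := lt_of_lt_of_le one_pos (one_le_effU hn (hctx.tilt_bdd τ th))
    have hF0 : 0 < F τ th := Real.exp_pos _
    have hp' : (0 : ℝ) < p := by positivity
    have hsU : 0 < Real.sqrt U := Real.sqrt_pos.2 hU0
    have hq' : G ^ (-r) = (Real.sqrt U)⁻¹ := hq τ th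
    have e1 : φ₁ G = F τ th * (s * r * (Real.sqrt U)⁻¹ / G) := by
      simp only [← hq', hφ₁]
      rw [Real.rpow_sub_one hG0.ne', hF]
      dsimp only
      rw [← hGdef, hφ]
      ring
    have e2 : φ₂ G ≤ F τ th * (s * r * (Real.sqrt U)⁻¹ / G) ^ 2 := by
      have hneg : 0 ≤ Real.exp (-s * G ^ (-r)) * (s * r * ((r + 1) * G ^ (-r - 1 - 1))) := by
        positivity
      have : φ₂ G = F τ th * (s * r * (Real.sqrt U)⁻¹ / G) ^ 2
          - Real.exp (-s * G ^ (-r)) * (s * r * ((r + 1) * G ^ (-r - 1 - 1))) := by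
        rw [← hq', hφ₂, hF]
        dsimp only
        rw [← hGdef, hφ, Real.rpow_sub_one hG0.ne' (-r)]
        ring
      linarith
    rw [hFgen τ th]
    change φ₁ G * _ + 2⁻¹ * (φ₂ G * _) ≤ _
    have hg1 := gen_Gf_le hctx hI hn hp2 hnp hτ th
    have hg2 := grad_Gf_le hctx hCB.le hBν hn hp0 hτ.le th
    rw [← hGdef, ← hU] at hg1 hg2
    have t1 : φ₁ G * gen μ (Gf μ p) τ th ≤ 12 * p * s / Real.sqrt τ * F τ th := by
      rw [e1]
      refine (mul_le_mul_of_nonneg_left hg1 (by positivity)).trans (le_of_eq ?_)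
      rw [Real.sqrt_div hU0.le, hr]
      field_simp
      ring
    have t2 : 2⁻¹ * (φ₂ G * ∑ k, D1 k (Gf μ p τ) th ^ 2) ≤ CB ^ 2 / 8 * s ^ 2 * F τ th := by
      refine (mul_le_mul_of_nonneg_left ((mul_le_mul_of_nonneg_right e2
        (Finset.sum_nonneg fun k _ => sq_nonneg _)).trans
          (mul_le_mul_of_nonneg_left hg2 (by positivity))) (by norm_num)).trans (le_of_eq ?_)
      rw [hr]
      field_simp
      ring
    linarith
  -- Gronwall
  obtain ⟨hcont, hderiv⟩ := hGen n μ hμ hb t F ht (hFn.admissible t)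
  set J : ℝ → ℝ := fun τ => ∫ th, F τ th ∂(obs μ τ) with hJ
  set E : ℝ → ℝ := fun τ => 24 * p * s * Real.sqrt τ + CB ^ 2 / 8 * s ^ 2 * τ with hEdef
  have hobs : ∀ τ, IsProbabilityMeasure (obs μ τ) := fun τ => by
    haveI := hμ
    exact Measure.isProbabilityMeasure_map (by fun_prop)
  have hint : ∀ τ, Integrable (F τ) (obs μ τ) := by
    intro τ
    haveI := hobs τ
    obtain ⟨M, hM⟩ := hFn.b0
    exact Integrable.of_bound (hFn.continuous_space τ).aestronglyMeasurable M
      (ae_of_all _ fun th => hM τ th)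
  have hJ' : ∀ τ ∈ Set.Ioo 0 t, HasDerivAt (fun u => J u * Real.exp (-E u))
      ((∫ th, gen μ F τ th ∂(obs μ τ)) * Real.exp (-E τ)
        + J τ * (Real.exp (-E τ) * -(24 * p * s * (1 / (2 * Real.sqrt τ))
          + CB ^ 2 / 8 * s ^ 2 * 1))) τ := fun τ hτ =>
    (hderiv τ hτ).mul ((((Real.hasDerivAt_sqrt hτ.1.ne').const_mul _).add
      ((hasDerivAt_id' τ).const_mul _)).neg.exp)
  have hanti : AntitoneOn (fun u => J u * Real.exp (-E u)) (Set.Icc 0 t) := by
    refine antitoneOn_of_deriv_nonpos (convex_Icc 0 t) (hcont.mul (by fun_prop)) ?_ ?_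
    · rw [interior_Icc]
      exact fun τ hτ => (hJ' τ hτ).differentiableAt.differentiableWithinAt
    · rw [interior_Icc]
      intro τ hτ
      rw [(hJ' τ hτ).deriv]
      haveI := hobs τ
      obtain ⟨hgc, M, hM⟩ := gen_bounded (μ := μ) hFn
        (fun i => hctx.ex_bd (by fun_prop)) (fun i u => (hctx.nice_ex (by fun_prop)).continuous_space u) τ
      have hle : ∫ th, gen μ F τ th ∂(obs μ τ)
          ≤ (12 * p * s / Real.sqrt τ + CB ^ 2 / 8 * s ^ 2) * J τ := by
        rw [hJ]
        dsimp only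
        rw [← integral_const_mul]
        exact integral_mono (Integrable.of_bound hgc.aestronglyMeasurable M
          (ae_of_all _ fun th => hM th)) ((hint τ).const_mul _) (hgen τ hτ.1)
      have := mul_le_mul_of_nonneg_right hle (Real.exp_pos (-E τ)).le
      have e : 24 * (p : ℝ) * s * (1 / (2 * Real.sqrt τ)) = 12 * p * s / Real.sqrt τ := by
        field_simp
        ring
      rw [e]
      linarith
  have hJt : J t ≤ J 0 * Real.exp (E t) := by
    have := hanti (Set.left_mem_Icc.2 ht.le) (Set.right_mem_Icc.2 ht.le) ht.le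
    simp only [hEdef, Real.sqrt_zero, mul_zero, add_zero, neg_zero, Real.exp_zero, mul_one] at this
    have h2 := mul_le_mul_of_nonneg_right this (Real.exp_pos (E t)).le
    rwa [mul_assoc, ← Real.exp_add, show -(24 * p * s * Real.sqrt t + CB ^ 2 / 8 * s ^ 2 * t)
      + E t = 0 by rw [hEdef]; ring, Real.exp_zero, mul_one] at h2
  have hq0 : ∀ τ th, q τ th ≤ 1 / 8 → Real.exp (-s / 8) ≤ F τ th := by
    intro τ th h
    refine Real.exp_le_exp.2 ?_
    change -s / 8 ≤ -s * q τ th
    nlinarith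
  have hJ0 : J 0 ≤ Real.exp (-s / 4) := by
    have hdirac : obs μ 0 = Measure.dirac 0 := by
      haveI := hμ
      simp [obs, Measure.map_const]
    rw [hJ]
    dsimp only
    rw [hdirac, integral_dirac]
    refine Real.exp_le_exp.2 ?_
    change -s * q 0 0 ≤ -s / 4
    suffices h : 1 / 4 ≤ q 0 0 by nlinarith
    rw [hq]
    have htilt : tilt μ 0 0 = μ := by
      haveI := hμ
      have : texp (n := n) 0 0 = fun _ => (0 : ℝ) := by
        ext x
        simp [texp]
      rw [tilt, this, tilted_const]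
    rw [htilt]
    haveI := hμ
    have hU0 : effU p μ ≤ 2 * (1 + 4) := by
      refine effU_le hn hb hp0 hnp' (by norm_num) fun v hv => ?_
      have i1 : Integrable (fun x => Real.exp (⟪x, v⟫ ^ 2)) μ := integrable_bdd hb (by fun_prop)
      have h4 : ∫ x, Real.exp (⟪x, v⟫ ^ 2) ∂μ ≤ 4 := by
        rw [integral_eq_lintegral_of_nonneg_ae (ae_of_all _ fun x => (Real.exp_pos _).le)
          i1.aestronglyMeasurable]
        exact ENNReal.toReal_le_of_le_ofReal (by norm_num) (by simpa using hsub v hv)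
      refine le_trans ?_ h4
      calc ∫ x, cl μ v x * cl μ v x ∂μ
          = ∫ x, (⟪x, v⟫ ^ 2 + ((-2 * ∫ z, ⟪z, v⟫ ∂μ) * ⟪x, v⟫
              + (∫ z, ⟪z, v⟫ ∂μ) ^ 2)) ∂μ := by
            congr 1
            ext x
            rw [cl]
            ring
        _ ≤ ∫ x, ⟪x, v⟫ ^ 2 ∂μ := by
            rw [integral_add (integrable_bdd hb (by fun_prop)) (integrable_bdd hb (by fun_prop)),
              integral_add (integrable_bdd hb (by fun_prop)) (integrable_const _),
              integral_const_mul, integral_const, probReal_univ, one_smul]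
            nlinarith [sq_nonneg (∫ z, ⟪z, v⟫ ∂μ)]
        _ ≤ ∫ x, Real.exp (⟪x, v⟫ ^ 2) ∂μ :=
            integral_mono (integrable_bdd hb (by fun_prop)) i1 fun x => by
              linarith [Real.add_one_le_exp (⟪x, v⟫ ^ 2)]
    have h16 : Real.sqrt (effU p μ) ≤ 4 := by
      rw [Real.sqrt_le_left (by norm_num)]
      linarith
    have hpos : 0 < Real.sqrt (effU p μ) :=
      Real.sqrt_pos.2 (lt_of_lt_of_le one_pos (one_le_effU hn hb))
    rw [one_div]
    exact inv_anti₀ hpos h16
  -- Markov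
  haveI := hobs t
  have hsub : {th | ∃ v : Rn n, ‖v‖ = 1 ∧ 64 < cv μ t th (fun x => ⟪x, v⟫) fun x => ⟪x, v⟫}
      ⊆ {th | Real.exp (-s / 8) ≤ F t th} := by
    rintro th ⟨v, hv, h64⟩
    haveI := hctx.tilt_prob t th
    have hbt := hctx.tilt_bdd t th
    refine hq0 t th ?_
    rw [hq]
    have hU : 64 < effU p (tilt μ t th) := by
      refine lt_of_lt_of_le h64 (le_of_eq_of_le ?_ (var_le_effU hn hbt hp0 hv))
      simp only [cl, hctx.tilt_int, cv]
      generalize ha : (ex μ t th fun x => ⟪x, v⟫) = a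
      rw [← hctx.tilt_int, ← hctx.tilt_int]
      simp only [sub_mul, mul_sub]
      rw [integral_sub (integrable_bdd hbt (by fun_prop)) (integrable_bdd hbt (by fun_prop)),
        integral_sub (integrable_bdd hbt (by fun_prop)) (integrable_bdd hbt (by fun_prop)),
        integral_sub (integrable_bdd hbt (by fun_prop)) (integrable_bdd hbt (by fun_prop))]
      simp only [integral_const_mul, integral_mul_const, integral_const, probReal_univ,
        one_smul]
      rw [hctx.tilt_int t th (fun x => ⟪x, v⟫), ha]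
      ring
    have h8 : (8 : ℝ) ≤ Real.sqrt (effU p (tilt μ t th)) := by
      rw [show (8 : ℝ) = Real.sqrt 64 by
        rw [show (64 : ℝ) = 8 ^ 2 by norm_num, Real.sqrt_sq (by norm_num)]]
      exact Real.sqrt_le_sqrt hU.le
    rw [one_div]
    exact inv_anti₀ (by norm_num) h8
  have hmarkov := mul_meas_ge_le_integral_of_nonneg
    (ae_of_all (obs μ t) fun th => (Real.exp_pos _).le) (hint t) (Real.exp (-s / 8))
  refine (measure_mono hsub).trans ?_
  rw [← ofReal_measureReal]
  refine ENNReal.ofReal_le_ofReal ?_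
  have hexp : Real.exp (-s / 8) * (obs μ t).real {th | Real.exp (-s / 8) ≤ F t th}
      ≤ Real.exp (-s / 4 + E t) := by
    refine hmarkov.trans (hJt.trans ?_)
    rw [Real.exp_add (-s / 4)]
    exact mul_le_mul_of_nonneg_right hJ0 (Real.exp_pos _).le
  have hE : E t ≤ s / 16 := by
    have hst : Real.sqrt t * (1 + L) ≤ 1 / 2304 := by
      have h1 : t * (1 + L) ^ 2 ≤ (1 / 2304) ^ 2 := by
        have := (le_div_iff₀ (by positivity)).1 htc
        exact this.trans (min_le_right _ _)
      have := Real.sqrt_le_sqrt h1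
      rwa [Real.sqrt_mul ht.le, Real.sqrt_sq (by positivity), Real.sqrt_sq (by norm_num)] at this
    have a1 : 24 * p * s * Real.sqrt t ≤ s / 32 := by
      have : (p : ℝ) * Real.sqrt t ≤ 3 * (1 + L) * Real.sqrt t :=
        mul_le_mul_of_nonneg_right hpL (Real.sqrt_nonneg _)
      nlinarith
    have a2 : CB ^ 2 / 8 * s ^ 2 * t ≤ s / 32 := by
      have h1 : CB ^ 2 / 8 * α ≤ 1 / 32 := by
        rw [hα, mul_one_div, div_le_div_iff₀ (by positivity) (by norm_num)]
        linarith
      have h2 : s ^ 2 * t = α * s := by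
        rw [hsdef]
        field_simp
      rw [mul_assoc, h2, ← mul_assoc]
      have := mul_le_mul_of_nonneg_right h1 hs0.le
      linarith
    simp only [hEdef]
    linarith
  have hfin : Real.exp (-s / 8) * (obs μ t).real {th | Real.exp (-s / 8) ≤ F t th}
      ≤ Real.exp (-s / 8) * Real.exp (-c / t) := by
    refine hexp.trans ?_
    rw [← Real.exp_add, Real.exp_le_exp]
    have h1 : c / t ≤ α / 16 / t := div_le_div_of_nonneg_right (min_le_left _ _) ht.le
    have h2 : α / 16 / t = s / 16 := by rw [hsdef]; ring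
    have h3 : -c / t = -(c / t) := by ring
    rw [h3]
    linarith
  exact le_of_mul_le_mul_left hfin (Real.exp_pos _)

end Vale.Agent.P245
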