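import Vale.Agent.P245.Defs

/-!
# P245, module M5: third moments of strongly log-concave measures

The two estimates behind the generator computation, in an orthonormal basis diagonalising the
covariance.
-/

namespace Vale.Agent.P245

open MeasureTheory
open scoped RealInnerProductSpace

namespace M5

variable {n : ℕ}

/-- Centred linear form. -/
noncomputable def cl (ν : Measure (Rn n)) (v : Rn n) (x : Rn n) : ℝ :=
  ⟪x, v⟫ - ∫ z, ⟪z, v⟫ ∂ν

/-- Third central moment in three directions. -/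
noncomputable def S3 (ν : Measure (Rn n)) (u v w : Rn n) : ℝ :=
  ∫ x, cl ν u x * cl ν v x * cl ν w x ∂ν

lemma IsSLC.mono {μ : Measure (Rn n)} {s t : ℝ} (hst : s ≤ t) (h : IsSLC t μ) : IsSLC s μ := by
  obtain ⟨ρ, hm, h0, he, hc⟩ := h
  refine ⟨ρ, hm, h0, he, fun x y l hl hl1 => le_trans ?_ (hc x y l hl hl1)⟩
  have hpos : 0 ≤ ρ x ^ (1 - l) * ρ y ^ l :=
    mul_nonneg (Real.rpow_nonneg (h0 x) _) (Real.rpow_nonneg (h0 y) _)
  refine mul_le_mul_of_nonneg_left (Real.exp_le_exp.2 ?_) hpos
  have hl' : 0 ≤ l * (1 - l) * ‖x - y‖ ^ 2 := by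
    have : 0 ≤ 1 - l := by linarith
    positivity
  nlinarith

/-- Continuous functions are integrable for a bounded-support probability measure. -/
lemma integrable_bdd {ν : Measure (Rn n)} [IsProbabilityMeasure ν] (hb : BddSupp ν)
    {f : Rn n → ℝ} (hf : Continuous f) : Integrable f ν := by
  obtain ⟨R, hR⟩ := hb
  obtain ⟨C, hC⟩ := (isCompact_closedBall (0 : Rn n) R).exists_bound_of_continuousOn hf.continuousOn
  refine Integrable.of_bound hf.aestronglyMeasurable C ?_
  filter_upwards [hR] with x hx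
  exact hC x (by simpa using hx)

@[fun_prop]
lemma continuous_cl (ν : Measure (Rn n)) (v : Rn n) : Continuous (cl ν v) := by
  unfold cl
  fun_prop

variable {ν : Measure (Rn n)} [IsProbabilityMeasure ν]

lemma integral_cl (hb : BddSupp ν) (v : Rn n) : ∫ x, cl ν v x ∂ν = 0 := by
  unfold cl
  rw [integral_sub (integrable_bdd hb (by fun_prop)) (integrable_const _)]
  simp

lemma cl_sum (hb : BddSupp ν) {ι : Type*} (s : Finset ι) (c : ι → ℝ) (v : ι → Rn n) (x : Rn n) :
    cl ν (∑ i ∈ s, c i • v i) x = ∑ i ∈ s, c i * cl ν (v i) x := by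
  unfold cl
  simp only [inner_sum, real_inner_smul_right, mul_sub, Finset.sum_sub_distrib]
  rw [integral_finset_sum _ fun i _ => integrable_bdd hb (by fun_prop)]
  simp only [integral_const_mul]

lemma vr_inner (v : Rn n) : vr ν (fun x => ⟪x, v⟫) = ∫ x, cl ν v x * cl ν v x ∂ν := by
  unfold vr cl
  simp only [pow_two]

variable (b : OrthonormalBasis (Fin n) ℝ (Rn n)) (a : Fin n → ℝ)

/-- The basis diagonalises the covariance, with eigenvalues `a`. -/
def Diag (ν : Measure (Rn n)) : Prop :=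
  ∀ i j, ∫ x, cl ν (b i) x * cl ν (b j) x ∂ν = if i = j then a i else 0

variable {b a}

lemma Diag.nonneg (hd : Diag b a ν) (i : Fin n) : 0 ≤ a i := by
  have h := hd i i
  rw [if_pos rfl] at h
  rw [← h]
  exact integral_nonneg fun x => mul_self_nonneg _

/-- The quadratic form of a diagonalised covariance. -/
lemma integral_comb_sq (hb : BddSupp ν) (hd : Diag b a ν) (c : Fin n → ℝ) :
    ∫ x, (∑ i, c i * cl ν (b i) x) * (∑ i, c i * cl ν (b i) x) ∂ν = ∑ i, c i ^ 2 * a i := by
  simp only [Finset.sum_mul_sum]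
  rw [integral_finset_sum _ fun i _ => integrable_bdd hb (by fun_prop)]
  refine Finset.sum_congr rfl fun i _ => ?_
  rw [integral_finset_sum _ fun j _ => integrable_bdd hb (by fun_prop)]
  rw [Finset.sum_eq_single i]
  · have : ∀ x, c i * cl ν (b i) x * (c i * cl ν (b i) x)
        = c i ^ 2 * (cl ν (b i) x * cl ν (b i) x) := fun x => by ring
    simp only [this, integral_const_mul, hd i i, if_true]
  · intro j _ hji
    have : ∀ x, c i * cl ν (b i) x * (c j * cl ν (b j) x)
        = c i * c j * (cl ν (b i) x * cl ν (b j) x) := fun x => by ring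
    simp only [this, integral_const_mul, hd i j, if_neg (Ne.symm hji), mul_zero]
  · simp

lemma vr_inner_le (hb : BddSupp ν) (hd : Diag b a ν) {lam : ℝ} (ha : ∀ i, a i ≤ lam) (v : Rn n) :
    vr ν (fun x => ⟪x, v⟫) ≤ lam * ‖v‖ ^ 2 := by
  have hv : v = ∑ i, ⟪b i, v⟫ • b i := (b.sum_repr' v).symm
  rw [vr_inner, hv]
  simp only [cl_sum hb]
  rw [integral_comb_sq hb hd, ← hv, ← b.sum_sq_inner_right v, Finset.mul_sum]
  refine Finset.sum_le_sum fun i _ => ?_
  nlinarith [sq_nonneg ⟪b i, v⟫, ha i]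

/-- Quadratic functions are controlled by the improved Poincaré inequality. -/
lemma vr_quad_le (hI : ImprovedPoincare) {t lam : ℝ} (ht : 0 < t) (hs : IsSLC t ν)
    (hb : BddSupp ν) (hd : Diag b a ν) (hlam : 0 ≤ lam) (ha : ∀ i, a i ≤ lam)
    (h : Fin n → Fin n → ℝ) (hsym : ∀ j l, h j l = h l j) :
    vr ν (fun x => ∑ j, ∑ l, h j l * (cl ν (b j) x * cl ν (b l) x))
      ≤ Real.sqrt (lam / t) * (4 * (lam * ∑ j, ∑ l, h j l ^ 2)) := by
  classical
  obtain ⟨R, hR⟩ := hb
  have hb : BddSupp ν := ⟨R, hR⟩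
  set q : Rn n → ℝ := fun x => ∑ j, ∑ l, h j l * (cl ν (b j) x * cl ν (b l) x)
  let χ : ContDiffBump (0 : Rn n) := ⟨|R| + 1, |R| + 2, by positivity, by linarith⟩
  set f : Rn n → ℝ := fun x => χ x * q x
  have hq2 : ContDiff ℝ 2 q := by
    have hl : ∀ u, ContDiff ℝ 2 (cl ν u) := fun u =>
      (contDiff_id.inner ℝ contDiff_const).sub contDiff_const
    exact ContDiff.sum fun j _ => ContDiff.sum fun l _ =>
      contDiff_const.mul ((hl (b j)).mul (hl (b l)))
  have hf2 : ContDiff ℝ 2 f := χ.contDiff.mul hq2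
  have hfc : HasCompactSupport f := χ.hasCompactSupport.mul_right
  have hf1 : ContDiff ℝ 1 f := hf2.of_le (by norm_num)
  have hdc : HasCompactSupport (fderiv ℝ f) := hfc.fderiv ℝ
  have hd1 : ContDiff ℝ 1 (fderiv ℝ f) := hf2.fderiv_right (by norm_num)
  obtain ⟨M₁, hM₁⟩ := hf1.continuous.bounded_above_of_compact_support hfc
  obtain ⟨M₂, hM₂⟩ := hd1.continuous.bounded_above_of_compact_support hdc
  obtain ⟨L, hL⟩ := hd1.lipschitzWith_of_hasCompactSupport hdc (by norm_num)
  have hT : Test f := by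
    refine ⟨hf1, max (max M₁ M₂) L, fun x => ⟨?_, ?_, fun y => ?_⟩⟩
    · exact le_trans (by simpa using hM₁ x) (le_trans (le_max_left _ _) (le_max_left _ _))
    · exact le_trans (hM₂ x) (le_trans (le_max_right _ _) (le_max_left _ _))
    · refine le_trans ?_ (mul_le_mul_of_nonneg_right (le_max_right _ (L : ℝ)) (norm_nonneg _))
      have := hL.norm_sub_le x y
      exact this
  have heq : ∀ x : Rn n, ‖x‖ ≤ R → f =ᶠ[nhds x] q := by
    intro x hx
    have : x ∈ Metric.ball (0 : Rn n) (|R| + 1) := by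
      rw [mem_ball_zero_iff]
      linarith [le_abs_self R]
    filter_upwards [Metric.isOpen_ball.mem_nhds this] with y hy
    have : χ y = 1 := χ.one_of_mem_closedBall (Metric.ball_subset_closedBall hy)
    simp [f, this]
  have hfq : f =ᵐ[ν] q := by
    filter_upwards [hR] with x hx
    exact (heq x hx).eq_of_nhds
  have hv : vr ν f = vr ν q := by
    unfold vr
    rw [integral_congr_ae hfq]
    refine integral_congr_ae ?_
    filter_upwards [hfq] with x hx
    rw [hx]
  set c : Fin n → Rn n → ℝ := fun j x => ∑ l, h j l * cl ν (b l) x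
  have hgrad : ∀ x, ‖fderiv ℝ q x‖ ^ 2 ≤ 4 * ∑ j, c j x * c j x := by
    intro x
    set w : Rn n := ∑ j, (2 * c j x) • b j with hw
    have hcl : ∀ u : Rn n, HasFDerivAt (cl ν u) (innerSL ℝ u) x := by
      intro u
      have : cl ν u = fun z => innerSL ℝ u z - ∫ z, ⟪z, u⟫ ∂ν := by
        ext z
        simp [cl, real_inner_comm u z]
      rw [this]
      exact (innerSL ℝ u).hasFDerivAt.sub_const _
    have hqd : HasFDerivAt q (innerSL ℝ w) x := by
      have h1 := HasFDerivAt.fun_sum (u := (Finset.univ : Finset (Fin n))) fun j _ =>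
        HasFDerivAt.fun_sum (u := (Finset.univ : Finset (Fin n))) fun l _ =>
          ((hcl (b j)).mul (hcl (b l))).const_mul (h j l)
      refine h1.congr_fderiv ?_
      ext v
      simp only [ContinuousLinearMap.coe_sum', Finset.sum_apply, ContinuousLinearMap.smul_apply,
        ContinuousLinearMap.add_apply, innerSL_apply_apply, smul_eq_mul, hw, sum_inner,
        real_inner_smul_left, c, mul_add, Finset.sum_add_distrib]
      have hswap : ∑ j, ∑ l, h j l * (cl ν (b l) x * ⟪b j, v⟫)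
          = ∑ j, (∑ l, h j l * cl ν (b l) x) * ⟪b j, v⟫ := by
        simp only [Finset.sum_mul, mul_assoc]
      have hswap2 : ∑ j, ∑ l, h j l * (cl ν (b j) x * ⟪b l, v⟫)
          = ∑ j, (∑ l, h j l * cl ν (b l) x) * ⟪b j, v⟫ := by
        rw [Finset.sum_comm, ← hswap]
        exact Finset.sum_congr rfl fun j _ => Finset.sum_congr rfl fun l _ => by rw [hsym]
      simp only [mul_assoc (2 : ℝ), ← Finset.mul_sum]
      linarith
    rw [hqd.fderiv, innerSL_apply_norm]
    rw [← b.sum_sq_inner_right w, Finset.mul_sum]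
    refine le_of_eq (Finset.sum_congr rfl fun j _ => ?_)
    rw [hw, b.orthonormal.inner_right_fintype]
    ring
  have hen : energy ν f ≤ 4 * (lam * ∑ j, ∑ l, h j l ^ 2) := by
    have hi : ∀ j, Integrable (fun x => c j x * c j x) ν :=
      fun j => integrable_bdd hb (by unfold c; fun_prop)
    calc energy ν f ≤ ∫ x, 4 * ∑ j, c j x * c j x ∂ν := by
          refine integral_mono_of_nonneg (ae_of_all _ fun x => by positivity)
            ((integrable_finset_sum _ fun j _ => hi j).const_mul 4) ?_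
          filter_upwards [hR] with x hx
          rw [(heq x hx).fderiv_eq]
          exact hgrad x
      _ = 4 * ∑ j, ∑ l, h j l ^ 2 * a l := by
          rw [integral_const_mul, integral_finset_sum _ fun j _ => hi j]
          simp only [c, integral_comb_sq hb hd]
      _ ≤ 4 * (lam * ∑ j, ∑ l, h j l ^ 2) := by
          simp only [Finset.mul_sum]
          refine Finset.sum_le_sum fun j _ => Finset.sum_le_sum fun l _ => ?_
          have := mul_le_mul_of_nonneg_left (ha l) (sq_nonneg (h j l))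
          linarith
  rw [← hv]
  exact le_trans (hI n t lam ν inferInstance ht hlam hs hb (vr_inner_le hb hd ha) f hT)
    (mul_le_mul_of_nonneg_left hen (Real.sqrt_nonneg _))

/-- The third-moment tensor, contracted against itself. -/
lemma third_sum_le (hI : ImprovedPoincare) {t lam : ℝ} (ht : 0 < t) (hs : IsSLC t ν)
    (hb : BddSupp ν) (hd : Diag b a ν) (hlam : 0 ≤ lam) (ha : ∀ i, a i ≤ lam) (i : Fin n) :
    ∑ j, ∑ l, S3 ν (b i) (b j) (b l) ^ 2 ≤ 4 * (a i * (lam * Real.sqrt (lam / t))) := by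
  set h : Fin n → Fin n → ℝ := fun j l => S3 ν (b i) (b j) (b l) with hh
  set H := ∑ j, ∑ l, h j l ^ 2 with hH
  set q : Rn n → ℝ := fun x => ∑ j, ∑ l, h j l * (cl ν (b j) x * cl ν (b l) x)
  have hsym : ∀ j l, h j l = h l j := by
    intro j l
    simp only [h, S3]
    congr 1
    ext x
    ring
  have hqc : Continuous q := by unfold q; fun_prop
  have hqi : ∫ x, q x * cl ν (b i) x ∂ν = H := by
    simp only [q, Finset.sum_mul]
    rw [integral_finset_sum _ fun j _ => integrable_bdd hb (by fun_prop)]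
    refine Finset.sum_congr rfl fun j _ => ?_
    rw [integral_finset_sum _ fun l _ => integrable_bdd hb (by fun_prop)]
    refine Finset.sum_congr rfl fun l _ => ?_
    have : ∀ x, h j l * (cl ν (b j) x * cl ν (b l) x) * cl ν (b i) x
        = h j l * (cl ν (b i) x * cl ν (b j) x * cl ν (b l) x) := fun x => by ring
    simp only [this, integral_const_mul]
    simp only [h, S3, pow_two]
  set Eq := ∫ x, q x ∂ν
  have hquad : ∀ s : ℝ, 0 ≤ a i * (s * s) + (-2 * H) * s + vr ν q := by
    intro s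
    have h0 : 0 ≤ ∫ x, (q x - Eq - s * cl ν (b i) x) ^ 2 ∂ν :=
      integral_nonneg fun x => sq_nonneg _
    have hexp : ∀ x, (q x - Eq - s * cl ν (b i) x) ^ 2 = (q x - Eq) ^ 2
        + ((s * s) * (cl ν (b i) x * cl ν (b i) x)
        + ((-2 * s) * (q x * cl ν (b i) x) + (2 * s * Eq) * cl ν (b i) x)) := fun x => by ring
    simp only [hexp] at h0
    rw [integral_add (integrable_bdd hb (by fun_prop)) (integrable_bdd hb (by fun_prop)),
      integral_add (integrable_bdd hb (by fun_prop)) (integrable_bdd hb (by fun_prop)),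
      integral_add (integrable_bdd hb (by fun_prop)) (integrable_bdd hb (by fun_prop))] at h0
    simp only [integral_const_mul, integral_cl hb, hd i i, if_true, hqi, mul_zero, add_zero] at h0
    change 0 ≤ vr ν q + _ at h0
    linarith
  have hdis := discrim_le_zero hquad
  rw [discrim] at hdis
  have hv := vr_quad_le hI ht hs hb hd hlam ha h hsym
  change vr ν q ≤ _ at hv
  have hai := hd.nonneg i
  rw [← hH] at hv
  have hH0 : 0 ≤ H := by positivity
  have key : H * H ≤ (4 * (a i * (lam * Real.sqrt (lam / t)))) * H := by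
    have := mul_le_mul_of_nonneg_left hv hai
    nlinarith
  rcases eq_or_lt_of_le hH0 with h0 | h0
  · change H ≤ _
    rw [← h0]
    positivity
  · exact le_of_mul_le_mul_right key h0

/-- A third moment with one free direction, through Borell's bound. -/
lemma third_cross {C : ℝ} (hC : 0 ≤ C) {lam : ℝ} (hlam : 0 < lam)
    (hB : ∀ v : Rn n, ∫ x, |cl ν v x| ^ 3 ∂ν ≤ C * (vr ν fun x => ⟪x, v⟫) ^ ((3 : ℝ) / 2))
    (hb : BddSupp ν) (hd : Diag b a ν) (ha : ∀ i, a i ≤ lam) (i : Fin n) {v : Rn n}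
    (hv : ‖v‖ ≤ 1) :
    |S3 ν v (b i) (b i)| ≤ C * (Real.sqrt lam * a i) := by
  have hai := hd.nonneg i
  rcases eq_or_lt_of_le hai with h0 | h0
  · have hz : (fun x => cl ν (b i) x * cl ν (b i) x) =ᵐ[ν] 0 := by
      refine (integral_eq_zero_iff_of_nonneg (fun x => mul_self_nonneg _)
        (integrable_bdd hb ((continuous_cl ν (b i)).mul (continuous_cl ν (b i))))).1 ?_
      rw [hd i i, if_pos rfl, ← h0]
    have : S3 ν v (b i) (b i) = 0 := by
      refine integral_eq_zero_of_ae ?_
      filter_upwards [hz] with x hx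
      simp only [Pi.zero_apply] at hx ⊢
      rw [mul_assoc, hx, mul_zero]
    rw [this, ← h0]
    simp
  have hrp : ∀ z : ℝ, 0 ≤ z → z ^ ((3 : ℝ) / 2) = z * Real.sqrt z := by
    intro z hz
    rw [Real.sqrt_eq_rpow, show ((3 : ℝ) / 2) = 1 + 1 / 2 by norm_num,
      Real.rpow_add' hz (by norm_num), Real.rpow_one]
  set w := Real.sqrt lam / Real.sqrt (a i) with hw
  have hwp : 0 < w := div_pos (Real.sqrt_pos.2 hlam) (Real.sqrt_pos.2 h0)
  have hy : ∀ x, |cl ν v x * cl ν (b i) x * cl ν (b i) x|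
      ≤ 1 / (3 * w ^ 2) * |cl ν v x| ^ 3 + 2 * w / 3 * |cl ν (b i) x| ^ 3 := by
    intro x
    rw [abs_mul, abs_mul]
    generalize hA : |cl ν v x| = A
    generalize hB : |cl ν (b i) x| = B
    have hA0 : 0 ≤ A := hA ▸ abs_nonneg _
    have hB0 : 0 ≤ B := hB ▸ abs_nonneg _
    have key : 3 * w ^ 2 * (A * B * B) ≤ A ^ 3 + 2 * (w * B) ^ 3 := by
      nlinarith [mul_nonneg (sq_nonneg (A - w * B)) (add_nonneg hA0 (mul_nonneg
        (mul_nonneg (by norm_num : (0 : ℝ) ≤ 2) hwp.le) hB0))]
    rw [← mul_le_mul_iff_right₀ (by positivity : 0 < 3 * w ^ 2)]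
    calc 3 * w ^ 2 * (A * B * B) ≤ A ^ 3 + 2 * (w * B) ^ 3 := key
      _ = _ := by field_simp
  have i1 : Integrable (fun x => 1 / (3 * w ^ 2) * |cl ν v x| ^ 3) ν :=
    integrable_bdd hb (by fun_prop)
  have i2 : Integrable (fun x => 2 * w / 3 * |cl ν (b i) x| ^ 3) ν :=
    integrable_bdd hb (by fun_prop)
  have hvv : vr ν (fun x => ⟪x, v⟫) ≤ lam := by
    refine le_trans (vr_inner_le hb hd ha v) ?_
    nlinarith [norm_nonneg v, pow_le_one₀ (n := 2) (norm_nonneg v) hv]
  have hvv0 : 0 ≤ vr ν (fun x => ⟪x, v⟫) := integral_nonneg fun x => sq_nonneg _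
  have hvi : vr ν (fun x => ⟪x, b i⟫) = a i := by rw [vr_inner, hd i i, if_pos rfl]
  have hb1 : ∫ x, |cl ν v x| ^ 3 ∂ν ≤ C * (lam * Real.sqrt lam) := by
    refine le_trans (hB v) ?_
    rw [hrp _ hvv0]
    gcongr
  have hb2 : ∫ x, |cl ν (b i) x| ^ 3 ∂ν ≤ C * (a i * Real.sqrt (a i)) := by
    have := hB (b i)
    rwa [hvi, hrp _ hai] at this
  calc |S3 ν v (b i) (b i)|
      ≤ ∫ x, |cl ν v x * cl ν (b i) x * cl ν (b i) x| ∂ν := abs_integral_le_integral_abs
    _ ≤ ∫ x, (1 / (3 * w ^ 2) * |cl ν v x| ^ 3 + 2 * w / 3 * |cl ν (b i) x| ^ 3) ∂ν :=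
        integral_mono (integrable_bdd hb (by fun_prop)) (i1.add i2) hy
    _ = 1 / (3 * w ^ 2) * ∫ x, |cl ν v x| ^ 3 ∂ν + 2 * w / 3 * ∫ x, |cl ν (b i) x| ^ 3 ∂ν := by
        rw [integral_add i1 i2, integral_const_mul, integral_const_mul]
    _ ≤ 1 / (3 * w ^ 2) * (C * (lam * Real.sqrt lam))
          + 2 * w / 3 * (C * (a i * Real.sqrt (a i))) := by gcongr
    _ = C * (Real.sqrt lam * a i) := by
        rw [hw, div_pow, Real.sq_sqrt hlam.le, Real.sq_sqrt hai]
        field_simp
        ring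

end M5

end Vale.Agent.P245
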