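import Vale.Agent.P245.M5.Moments

/-!
# P245, module M5: trace estimates in the eigenbasis of the covariance
-/

namespace Vale.Agent.P245

open MeasureTheory Matrix
open scoped RealInnerProductSpace

namespace M5

variable {n : ℕ}

/-- Covariance matrix. -/
noncomputable def covM (ν : Measure (Rn n)) : Matrix (Fin n) (Fin n) ℝ :=
  Matrix.of fun i j => ∫ x, cl ν (unit i) x * cl ν (unit j) x ∂ν

/-- Third central moments in the direction `k`, as a matrix. -/
noncomputable def thirdM (ν : Measure (Rn n)) (k : Fin n) : Matrix (Fin n) (Fin n) ℝ :=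
  Matrix.of fun i j => S3 ν (unit i) (unit j) (unit k)

/-- The potential `tr (1 + A) ^ p`. -/
noncomputable def pot (p : ℕ) (ν : Measure (Rn n)) : ℝ := ((1 + covM ν) ^ p).trace

/-- The effective largest eigenvalue `(tr (1 + A) ^ p) ^ (1 / p)`. -/
noncomputable def effU (p : ℕ) (ν : Measure (Rn n)) : ℝ := pot p ν ^ (p : ℝ)⁻¹

lemma eq_sum_unit (v : Rn n) : v = ∑ i, v i • unit i := by
  ext j
  simp [unit, WithLp.ofLp_sum, Finset.sum_apply, Pi.single_apply]

variable {ν : Measure (Rn n)} [IsProbabilityMeasure ν]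

lemma cl_eq_sum (hb : BddSupp ν) (v : Rn n) (x : Rn n) :
    cl ν v x = ∑ i, v i * cl ν (unit i) x := by
  conv_lhs => rw [eq_sum_unit v]
  rw [cl_sum hb]

lemma integral_cl_cl (hb : BddSupp ν) (v w : Rn n) :
    ∫ x, cl ν v x * cl ν w x ∂ν = ∑ i, ∑ j, v i * covM ν i j * w j := by
  simp only [cl_eq_sum hb v, cl_eq_sum hb w, Finset.sum_mul_sum]
  rw [integral_finsetSum _ fun i _ => integrable_bdd hb (by fun_prop)]
  refine Finset.sum_congr rfl fun i _ => ?_
  rw [integral_finsetSum _ fun j _ => integrable_bdd hb (by fun_prop)]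
  refine Finset.sum_congr rfl fun j _ => ?_
  rw [covM, Matrix.of_apply, ← integral_const_mul, ← integral_mul_const]
  congr 1
  ext x
  ring

lemma S3_eq_sum (hb : BddSupp ν) (u v w : Rn n) :
    S3 ν u v w = ∑ k, w k * S3 ν u v (unit k) := by
  unfold S3
  simp only [cl_eq_sum hb w, Finset.mul_sum]
  rw [integral_finsetSum _ fun i _ => integrable_bdd hb (by fun_prop)]
  refine Finset.sum_congr rfl fun i _ => ?_
  rw [← integral_const_mul]
  congr 1
  ext x
  ring

lemma S3_pair (hb : BddSupp ν) (u v : Rn n) (k : Fin n) :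
    S3 ν u v (unit k) = ∑ i, ∑ j, u i * thirdM ν k i j * v j := by
  unfold S3
  simp only [cl_eq_sum hb u, cl_eq_sum hb v, Finset.sum_mul_sum]
  simp only [Finset.sum_mul]
  rw [integral_finsetSum _ fun i _ => integrable_bdd hb (by fun_prop)]
  refine Finset.sum_congr rfl fun i _ => ?_
  rw [integral_finsetSum _ fun j _ => integrable_bdd hb (by fun_prop)]
  refine Finset.sum_congr rfl fun j _ => ?_
  rw [thirdM, Matrix.of_apply, S3, ← integral_const_mul, ← integral_mul_const]
  congr 1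
  ext x
  ring

/-- Spectral data of the covariance. -/
structure Eig (ν : Measure (Rn n)) where
  /-- eigenvectors -/
  b : OrthonormalBasis (Fin n) ℝ (Rn n)
  /-- eigenvalues -/
  a : Fin n → ℝ
  diag : Diag b a ν

omit [IsProbabilityMeasure ν] in
lemma covM_isHermitian : (covM ν).IsHermitian := by
  refine Matrix.IsHermitian.ext fun i j => ?_
  simp only [covM, Matrix.of_apply, star_trivial, mul_comm]

lemma exists_eig (hb : BddSupp ν) : Nonempty (Eig ν) := by
  have hC := covM_isHermitian (ν := ν)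
  refine ⟨⟨hC.eigenvectorBasis, hC.eigenvalues, fun i j => ?_⟩⟩
  rw [integral_cl_cl hb]
  have h : ∀ p, ∑ q, covM ν p q * hC.eigenvectorBasis j q
      = hC.eigenvalues j * hC.eigenvectorBasis j p := fun p => by
    simpa [Matrix.mulVec, dotProduct] using congrFun (hC.mulVec_eigenvectorBasis j) p
  simp only [mul_assoc, ← Finset.mul_sum, h]
  have h2 : ∑ p, hC.eigenvectorBasis i p * hC.eigenvectorBasis j p = if i = j then (1 : ℝ) else 0 := by
    have := orthonormal_iff_ite.1 hC.eigenvectorBasis.orthonormal i j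
    rw [PiLp.inner_apply] at this
    simpa [mul_comm] using this
  calc ∑ p, hC.eigenvectorBasis i p * (hC.eigenvalues j * hC.eigenvectorBasis j p)
      = hC.eigenvalues j * ∑ p, hC.eigenvectorBasis i p * hC.eigenvectorBasis j p := by
        rw [Finset.mul_sum]
        exact Finset.sum_congr rfl fun p _ => by ring
    _ = _ := by
        rw [h2]
        split_ifs with h <;> simp [h]

namespace Eig

variable (e : Eig ν)

/-- The orthogonal matrix of eigenvectors. -/
noncomputable def W : Matrix (Fin n) (Fin n) ℝ := Matrix.of fun i j => e.b j i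

/-- Conjugation to the eigenbasis. -/
noncomputable def conj (X : Matrix (Fin n) (Fin n) ℝ) : Matrix (Fin n) (Fin n) ℝ :=
  e.Wᵀ * X * e.W

omit [IsProbabilityMeasure ν] in
lemma conj_apply (X : Matrix (Fin n) (Fin n) ℝ) (i j : Fin n) :
    e.conj X i j = ∑ p, ∑ q, e.b i p * X p q * e.b j q := by
  simp only [conj, Matrix.mul_apply, W, Matrix.transpose_apply, Matrix.of_apply, Finset.sum_mul]
  exact Finset.sum_comm

omit [IsProbabilityMeasure ν] in
lemma W_orth : e.Wᵀ * e.W = 1 := by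
  ext i j
  have := orthonormal_iff_ite.1 e.b.orthonormal i j
  rw [PiLp.inner_apply] at this
  simpa [W, Matrix.mul_apply, Matrix.one_apply, mul_comm] using this

omit [IsProbabilityMeasure ν] in
lemma W_orth' : e.W * e.Wᵀ = 1 := mul_eq_one_comm.1 e.W_orth

omit [IsProbabilityMeasure ν] in
lemma conj_mul (X Y : Matrix (Fin n) (Fin n) ℝ) : e.conj (X * Y) = e.conj X * e.conj Y := by
  simp only [conj, mul_assoc]
  rw [← mul_assoc e.W e.Wᵀ, e.W_orth', one_mul]

omit [IsProbabilityMeasure ν] in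
lemma trace_conj (X : Matrix (Fin n) (Fin n) ℝ) : (e.conj X).trace = X.trace := by
  rw [conj, Matrix.trace_mul_cycle, e.W_orth', one_mul]

lemma conj_cov (hb : BddSupp ν) : e.conj (covM ν) = diagonal e.a := by
  ext i j
  rw [conj_apply, ← integral_cl_cl hb, e.diag i j, diagonal_apply]

/-- Eigenvalues of `1 + A`. -/
noncomputable def lam (i : Fin n) : ℝ := 1 + e.a i

lemma one_le_lam (i : Fin n) : 1 ≤ e.lam i := by
  have := e.diag.nonneg i
  simp only [lam]
  linarith

lemma conj_pow (hb : BddSupp ν) (m : ℕ) :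
    e.conj ((1 + covM ν) ^ m) = diagonal fun i => e.lam i ^ m := by
  induction m with
  | zero => simp [conj, e.W_orth]
  | succ m ih =>
    rw [pow_succ, e.conj_mul, ih]
    have : e.conj (1 + covM ν) = diagonal e.lam := by
      have h1 : e.conj (1 + covM ν) = e.conj 1 + e.conj (covM ν) := by
        simp only [conj, mul_add, add_mul]
      rw [h1, e.conj_cov hb, conj, mul_one, e.W_orth, ← diagonal_one, diagonal_add]
      rfl
    rw [this, diagonal_mul_diagonal]
    exact congrArg diagonal (funext fun i => (pow_succ _ _).symm)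

lemma conj_third (hb : BddSupp ν) (k i j : Fin n) :
    e.conj (thirdM ν k) i j = S3 ν (e.b i) (e.b j) (unit k) := by
  rw [conj_apply, S3_pair hb]

lemma pot_eq (hb : BddSupp ν) (p : ℕ) : pot p ν = ∑ i, e.lam i ^ p := by
  rw [pot, ← e.trace_conj, e.conj_pow hb, trace_diagonal]

lemma trace_pow_sq (e : Eig ν) (hb : BddSupp ν) (p q : ℕ) :
    0 ≤ ((1 + covM ν) ^ p * (covM ν * covM ν) * (1 + covM ν) ^ q).trace := by
  rw [← e.trace_conj]
  simp only [conj_mul, e.conj_pow hb, e.conj_cov hb, diagonal_mul_diagonal, trace_diagonal]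
  refine Finset.sum_nonneg fun i _ => ?_
  have := e.one_le_lam i
  exact mul_nonneg (mul_nonneg (by positivity) (mul_self_nonneg _)) (by positivity)

lemma trace_one_third (hb : BddSupp ν) (p q : ℕ) (k : Fin n) :
    ((1 + covM ν) ^ p * thirdM ν k * (1 + covM ν) ^ q).trace
      = ∑ i, e.lam i ^ (p + q) * S3 ν (e.b i) (e.b i) (unit k) := by
  rw [← e.trace_conj]
  simp only [conj_mul, e.conj_pow hb, Matrix.trace, Matrix.diag, Matrix.mul_diagonal,
    Matrix.diagonal_mul, e.conj_third hb]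
  exact Finset.sum_congr rfl fun i _ => by ring

lemma trace_two_third (hb : BddSupp ν) (p q r : ℕ) (k : Fin n) :
    ((1 + covM ν) ^ p * thirdM ν k * (1 + covM ν) ^ q * thirdM ν k * (1 + covM ν) ^ r).trace
      = ∑ i, ∑ j, e.lam i ^ (p + r) * e.lam j ^ q * S3 ν (e.b i) (e.b j) (unit k) ^ 2 := by
  rw [← e.trace_conj]
  simp only [conj_mul, e.conj_pow hb, Matrix.trace, Matrix.diag]
  refine Finset.sum_congr rfl fun i _ => ?_
  rw [Matrix.mul_diagonal, Matrix.mul_apply, Finset.sum_mul]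
  refine Finset.sum_congr rfl fun j _ => ?_
  simp only [Matrix.mul_diagonal, Matrix.diagonal_mul, e.conj_third hb]
  have : S3 ν (e.b j) (e.b i) (unit k) = S3 ν (e.b i) (e.b j) (unit k) := by
    unfold S3
    congr 1
    ext x
    ring
  rw [this]
  ring

lemma sum_third_sq (hb : BddSupp ν) (i j : Fin n) :
    ∑ k, S3 ν (e.b i) (e.b j) (unit k) ^ 2 = ∑ l, S3 ν (e.b i) (e.b j) (e.b l) ^ 2 := by
  set z : Rn n := WithLp.toLp 2 fun k => S3 ν (e.b i) (e.b j) (unit k) with hz
  have h1 : ∀ l, ⟪e.b l, z⟫ = S3 ν (e.b i) (e.b j) (e.b l) := by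
    intro l
    rw [S3_eq_sum hb (w := e.b l), PiLp.inner_apply]
    exact Finset.sum_congr rfl fun k _ => by simp [hz, mul_comm]
  simp only [← h1]
  rw [e.b.sum_sq_inner_right, EuclideanSpace.real_norm_sq_eq]

end Eig

/-! ### The bounds, free of the basis -/

variable {p : ℕ}

lemma one_le_pot (hn : 1 ≤ n) (hb : BddSupp ν) (p : ℕ) : 1 ≤ pot p ν := by
  obtain ⟨e⟩ := exists_eig hb
  rw [e.pot_eq hb]
  refine le_trans (one_le_pow₀ (n := p) (e.one_le_lam ⟨0, hn⟩)) ?_
  exact Finset.single_le_sum (fun i _ => pow_nonneg (zero_le_one.trans (e.one_le_lam i)) p)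
    (Finset.mem_univ _)

lemma effU_pow (hn : 1 ≤ n) (hb : BddSupp ν) (hp : p ≠ 0) : effU p ν ^ p = pot p ν :=
  Real.rpow_inv_natCast_pow (zero_le_one.trans (one_le_pot hn hb p)) hp

lemma one_le_effU (hn : 1 ≤ n) (hb : BddSupp ν) : 1 ≤ effU p ν :=
  Real.one_le_rpow (one_le_pot hn hb p) (by positivity)

lemma Eig.lam_le (e : Eig ν) (hn : 1 ≤ n) (hb : BddSupp ν) (hp : p ≠ 0) (i : Fin n) :
    e.lam i ≤ effU p ν := by
  refine (pow_le_pow_iff_left₀ (zero_le_one.trans (e.one_le_lam i))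
    (zero_le_one.trans (one_le_effU hn hb)) hp).1 ?_
  rw [effU_pow hn hb hp, e.pot_eq hb]
  exact Finset.single_le_sum (f := fun j => e.lam j ^ p)
    (fun j _ => pow_nonneg (zero_le_one.trans (e.one_le_lam j)) p) (Finset.mem_univ i)

lemma Eig.a_le (e : Eig ν) (hn : 1 ≤ n) (hb : BddSupp ν) (hp : p ≠ 0) (i : Fin n) :
    e.a i ≤ effU p ν := by
  have := e.lam_le hn hb hp i
  simp only [Eig.lam] at this
  linarith

lemma var_le_effU (hn : 1 ≤ n) (hb : BddSupp ν) (hp : p ≠ 0) {v : Rn n} (hv : ‖v‖ = 1) :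
    ∫ x, cl ν v x * cl ν v x ∂ν ≤ effU p ν := by
  obtain ⟨e⟩ := exists_eig hb
  rw [← vr_inner]
  simpa [hv] using vr_inner_le hb e.diag (e.a_le hn hb hp) v

lemma effU_le (hn : 1 ≤ n) (hb : BddSupp ν) (hp : p ≠ 0) (hnp : (n : ℝ) ≤ 2 ^ p) {K : ℝ}
    (hK : 0 ≤ K) (hv : ∀ v : Rn n, ‖v‖ = 1 → ∫ x, cl ν v x * cl ν v x ∂ν ≤ K) :
    effU p ν ≤ 2 * (1 + K) := by
  obtain ⟨e⟩ := exists_eig hb
  refine (pow_le_pow_iff_left₀ (zero_le_one.trans (one_le_effU hn hb)) (by positivity) hp).1 ?_
  rw [effU_pow hn hb hp, e.pot_eq hb, mul_pow]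
  calc ∑ i, e.lam i ^ p ≤ ∑ _i : Fin n, (1 + K) ^ p := by
        refine Finset.sum_le_sum fun i _ => ?_
        refine pow_le_pow_left₀ (zero_le_one.trans (e.one_le_lam i)) ?_ p
        have := hv (e.b i) (e.b.orthonormal.norm_eq_one i)
        rw [e.diag i i, if_pos rfl] at this
        simp only [Eig.lam]
        linarith
    _ = n * (1 + K) ^ p := by simp
    _ ≤ 2 ^ p * (1 + K) ^ p := by gcongr

lemma trace_sq_nonneg (hb : BddSupp ν) (p q : ℕ) :
    0 ≤ ((1 + covM ν) ^ p * (covM ν * covM ν) * (1 + covM ν) ^ q).trace := by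
  obtain ⟨e⟩ := exists_eig hb
  exact e.trace_pow_sq hb p q

/-- The second-order part of the generator of the potential. -/
lemma trace_two_le (hI : ImprovedPoincare) {t : ℝ} (ht : 0 < t) (hs : IsSLC t ν) (hn : 1 ≤ n)
    (hb : BddSupp ν) (hp : 2 ≤ p) (hnp : (n : ℝ) ≤ 2 ^ (p - 1)) {i₁ i₂ i₃ : ℕ}
    (h : i₁ + i₂ + i₃ + 2 = p) :
    ∑ k, ((1 + covM ν) ^ i₁ * thirdM ν k * (1 + covM ν) ^ i₂ * thirdM ν k
        * (1 + covM ν) ^ i₃).trace
      ≤ 24 * (pot p ν * Real.sqrt (effU p ν / t)) := by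
  obtain ⟨e⟩ := exists_eig hb
  have hp0 : p ≠ 0 := by omega
  set U := effU p ν
  have hU1 : 1 ≤ U := one_le_effU hn hb
  have hl0 : ∀ i, 0 ≤ e.lam i := fun i => zero_le_one.trans (e.one_le_lam i)
  set Z : Fin n → Fin n → ℝ := fun i j => ∑ l, S3 ν (e.b i) (e.b j) (e.b l) ^ 2
  have hZ0 : ∀ i j, 0 ≤ Z i j := fun i j => Finset.sum_nonneg fun l _ => sq_nonneg _
  have hZs : ∀ i j, Z i j = Z j i := by
    intro i j
    refine Finset.sum_congr rfl fun l _ => ?_
    unfold S3
    congr 2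
    ext x
    ring
  have hZ : ∀ i, ∑ j, Z i j ≤ 4 * (e.a i * (U * Real.sqrt (U / t))) := fun i =>
    third_sum_le hI ht hs hb e.diag (by linarith) (e.a_le hn hb hp0) i
  have hsum : ∑ i, e.lam i ^ (p - 1) ≤ 3 * U ^ (p - 1) := by
    have hi : ∀ i, e.lam i ^ (p - 1) ≤ 2 * (e.lam i ^ p / U) + U ^ (p - 1) / 2 ^ (p - 1) := by
      intro i
      have hU0 : 0 < U := by linarith
      rcases le_total (e.lam i) (U / 2) with hle | hle
      · refine le_add_of_nonneg_of_le (by have := hl0 i; positivity) ?_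
        rw [← div_pow]
        exact pow_le_pow_left₀ (hl0 i) hle _
      · refine le_add_of_le_of_nonneg ?_ (by positivity)
        have : e.lam i ^ p = e.lam i ^ (p - 1) * e.lam i := by
          rw [← pow_succ, Nat.sub_add_cancel (by omega)]
        rw [this, mul_div, le_div_iff₀ hU0]
        nlinarith [mul_le_mul_of_nonneg_left hle (pow_nonneg (hl0 i) (p - 1))]
    calc ∑ i, e.lam i ^ (p - 1)
        ≤ ∑ i, (2 * (e.lam i ^ p / U) + U ^ (p - 1) / 2 ^ (p - 1)) :=
          Finset.sum_le_sum fun i _ => hi i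
      _ = 2 * (pot p ν / U) + n * (U ^ (p - 1) / 2 ^ (p - 1)) := by
          rw [Finset.sum_add_distrib, ← Finset.mul_sum, ← Finset.sum_div, ← e.pot_eq hb]
          simp
      _ ≤ 2 * U ^ (p - 1) + U ^ (p - 1) := by
          refine add_le_add (le_of_eq ?_) ?_
          · rw [← effU_pow hn hb hp0, ← pow_sub_one_mul hp0 U]
            field_simp
          · rw [mul_div, div_le_iff₀ (by positivity)]
            nlinarith [mul_le_mul_of_nonneg_left hnp (pow_nonneg (zero_le_one.trans hU1) (p - 1))]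
      _ = 3 * U ^ (p - 1) := by ring
  calc ∑ k, ((1 + covM ν) ^ i₁ * thirdM ν k * (1 + covM ν) ^ i₂ * thirdM ν k
        * (1 + covM ν) ^ i₃).trace
      = ∑ i, ∑ j, e.lam i ^ (i₁ + i₃) * e.lam j ^ i₂ * Z i j := by
        simp only [e.trace_two_third hb]
        rw [Finset.sum_comm]
        refine Finset.sum_congr rfl fun i _ => ?_
        rw [Finset.sum_comm]
        refine Finset.sum_congr rfl fun j _ => ?_
        simp only [Z]
        rw [← e.sum_third_sq hb, Finset.mul_sum]
    _ ≤ ∑ i, ∑ j, (e.lam i ^ (p - 2) * Z i j + e.lam j ^ (p - 2) * Z j i) := by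
        refine Finset.sum_le_sum fun i _ => Finset.sum_le_sum fun j _ => ?_
        rw [← hZs i j, ← add_mul]
        refine mul_le_mul_of_nonneg_right ?_ (hZ0 i j)
        have hexp : p - 2 = (i₁ + i₃) + i₂ := by omega
        rw [hexp]
        rcases le_total (e.lam i) (e.lam j) with hle | hle
        · refine le_add_of_nonneg_of_le (pow_nonneg (hl0 i) _) ?_
          rw [pow_add (e.lam j)]
          exact mul_le_mul_of_nonneg_right (pow_le_pow_left₀ (hl0 i) hle _) (pow_nonneg (hl0 j) _)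
        · refine le_add_of_le_of_nonneg ?_ (pow_nonneg (hl0 j) _)
          refine le_trans (mul_le_mul_of_nonneg_left (pow_le_pow_left₀ (hl0 j) hle _)
            (pow_nonneg (hl0 i) _)) ?_
          rw [← pow_add]
    _ = 2 * ∑ i, e.lam i ^ (p - 2) * ∑ j, Z i j := by
        simp only [Finset.sum_add_distrib, Finset.mul_sum]
        rw [Finset.sum_comm (f := fun i j => e.lam j ^ (p - 2) * Z j i)]
        simp only [← Finset.mul_sum]
        ring
    _ ≤ 2 * ∑ i, e.lam i ^ (p - 1) * (4 * (U * Real.sqrt (U / t))) := by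
        refine mul_le_mul_of_nonneg_left (Finset.sum_le_sum fun i _ => ?_) (by norm_num)
        refine le_trans (mul_le_mul_of_nonneg_left (hZ i) (pow_nonneg (hl0 i) _)) ?_
        have hpp : e.lam i ^ (p - 1) = e.lam i ^ (p - 2) * e.lam i := by
          rw [← pow_succ]
          congr 1
          omega
        rw [hpp]
        have h1 : e.a i ≤ e.lam i := by simp [Eig.lam]
        have h2 : 0 ≤ 4 * (U * Real.sqrt (U / t)) := by positivity
        have h3 := mul_le_mul_of_nonneg_left (mul_le_mul_of_nonneg_right h1 h2)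
          (pow_nonneg (hl0 i) (p - 2))
        linarith
    _ ≤ 2 * (3 * U ^ (p - 1) * (4 * (U * Real.sqrt (U / t)))) := by
        rw [← Finset.sum_mul]
        gcongr
    _ = 24 * (pot p ν * Real.sqrt (U / t)) := by
        rw [← effU_pow hn hb hp0, ← pow_sub_one_mul hp0 U]
        ring

/-- The gradient of the potential. -/
lemma trace_one_le {C : ℝ} (hC : 0 ≤ C)
    (hB : ∀ v : Rn n, ∫ x, |cl ν v x| ^ 3 ∂ν ≤ C * (vr ν fun x => ⟪x, v⟫) ^ ((3 : ℝ) / 2))
    (hn : 1 ≤ n) (hb : BddSupp ν) (hp : p ≠ 0) {i₁ i₂ : ℕ} (h : i₁ + i₂ + 1 = p) {v : Rn n}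
    (hv : ‖v‖ ≤ 1) :
    ∑ k, v k * ((1 + covM ν) ^ i₁ * thirdM ν k * (1 + covM ν) ^ i₂).trace
      ≤ C * (Real.sqrt (effU p ν) * pot p ν) := by
  obtain ⟨e⟩ := exists_eig hb
  set U := effU p ν
  calc ∑ k, v k * ((1 + covM ν) ^ i₁ * thirdM ν k * (1 + covM ν) ^ i₂).trace
      = ∑ i, e.lam i ^ (i₁ + i₂) * S3 ν (e.b i) (e.b i) v := by
        simp only [e.trace_one_third hb, S3_eq_sum hb _ _ v, Finset.mul_sum]
        rw [Finset.sum_comm]
        exact Finset.sum_congr rfl fun i _ => Finset.sum_congr rfl fun k _ => by ring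
    _ ≤ ∑ i, e.lam i ^ (i₁ + i₂) * (C * (Real.sqrt U * e.lam i)) := by
        refine Finset.sum_le_sum fun i _ => mul_le_mul_of_nonneg_left ?_
          (pow_nonneg (zero_le_one.trans (e.one_le_lam i)) _)
        have h1 := third_cross hC (lt_of_lt_of_le one_pos (one_le_effU (p := p) hn hb)) hB hb
          e.diag (e.a_le hn hb hp) i hv
        have h2 : S3 ν (e.b i) (e.b i) v = S3 ν v (e.b i) (e.b i) := by
          unfold S3
          congr 1
          ext x
          ring
        rw [h2]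
        refine le_trans (le_abs_self _) (le_trans h1 ?_)
        gcongr
        simp [Eig.lam]
    _ = C * (Real.sqrt U * pot p ν) := by
        rw [e.pot_eq hb, ← h]
        simp only [Finset.mul_sum, pow_succ]
        exact Finset.sum_congr rfl fun i _ => by ring

end M5

end Vale.Agent.P245
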